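import Crest.Agent.R316.Parse.Read

/-!
# R316 / Parse / Compile : correctness of the constraints

`eatr_iff`: `w ∈ EATR ↔ Valid w ∧ ∃ X, ∀ Y, sumSq X Y (constraints w) ≠ 0`.
-/

set_option autoImplicit false

namespace Crest.Agent.R316.Parse

open Crest.RealEA

/-! ### environments -/

/-- combine the universal variables (even positions) and the auxiliary variables (odd positions) -/
def mkY (ye σ : ℕ → ℝ) : ℕ → ℝ := fun k => if k % 2 = 1 then σ (k / 2) else ye (k / 2)

theorem mkY_odd (ye σ : ℕ → ℝ) (k : ℕ) : mkY ye σ (2 * k + 1) = σ k := by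
  have h1 : (2 * k + 1) % 2 = 1 := by omega
  have h2 : (2 * k + 1) / 2 = k := by omega
  simp [mkY, h1, h2]

theorem mkY_even (ye σ : ℕ → ℝ) (k : ℕ) : mkY ye σ (2 * k) = ye k := by
  simp [mkY]

theorem mkY_eta (Y : ℕ → ℝ) : mkY (fun k => Y (2 * k)) (fun k => Y (2 * k + 1)) = Y := by
  funext k
  unfold mkY
  split_ifs with h
  · show Y (2 * (k / 2) + 1) = Y k
    congr 1; omega
  · show Y (2 * (k / 2)) = Y k
    congr 1; omega

/-- value of a constraint -/
noncomputable def ev (X ye σ : ℕ → ℝ) (c : SPoly) : ℝ := SPoly.eval X (mkY ye σ) c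

/-- all constraints vanish -/
def Sat (X ye σ : ℕ → ℝ) (cs : List SPoly) : Prop := ∀ c ∈ cs, ev X ye σ c = 0

@[simp] theorem sat_nil (X ye σ : ℕ → ℝ) : Sat X ye σ [] := by simp [Sat]

@[simp] theorem sat_cons {X ye σ : ℕ → ℝ} {c : SPoly} {cs : List SPoly} :
    Sat X ye σ (c :: cs) ↔ ev X ye σ c = 0 ∧ Sat X ye σ cs := by simp [Sat]

@[simp] theorem sat_append {X ye σ : ℕ → ℝ} {cs cs' : List SPoly} :
    Sat X ye σ (cs ++ cs') ↔ Sat X ye σ cs ∧ Sat X ye σ cs' := by
  simp [Sat, or_imp, forall_and]

@[simp] theorem elim_Av (X ye σ : ℕ → ℝ) (k : ℕ) : Sum.elim X (mkY ye σ) (Av k) = σ k := by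
  simp [Av, mkY_odd]

@[simp] theorem elim_even (X ye σ : ℕ → ℝ) (k : ℕ) :
    Sum.elim X (mkY ye σ) (Sum.inr (2 * k)) = ye k := by
  simp [mkY_even]

@[simp] theorem ev_nil (X ye σ : ℕ → ℝ) : ev X ye σ [] = 0 := by simp [ev, SPoly.eval]

@[simp] theorem ev_cons (X ye σ : ℕ → ℝ) (m : Mono) (c : SPoly) :
    ev X ye σ (m :: c) = Mono.eval X (mkY ye σ) m + ev X ye σ c := by simp [ev, SPoly.eval]

@[simp] theorem eval_pm (X Y : ℕ → ℝ) (l : List (ℕ ⊕ ℕ)) :
    Mono.eval X Y (pm l) = (l.map (Sum.elim X Y)).prod := by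
  simp [Mono.eval, pm, Mono.coef]

@[simp] theorem eval_nm (X Y : ℕ → ℝ) (l : List (ℕ ⊕ ℕ)) :
    Mono.eval X Y (nm l) = -(l.map (Sum.elim X Y)).prod := by
  simp [Mono.eval, nm, Mono.coef]

/-! ### circuits -/

theorem circuitValues_append (x y : ℕ → ℝ) (c : List AGate) (g : AGate) :
    circuitValues x y (c ++ [g]) =
      circuitValues x y c ++ [g.value x y (circuitValues x y c)] := by
  simp [circuitValues]

@[simp] theorem length_circuitValues (x y : ℕ → ℝ) (c : List AGate) :
    (circuitValues x y c).length = c.length := by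
  induction c using List.reverseRecOn with
  | nil => rfl
  | append_singleton c g ih => rw [circuitValues_append]; simp [ih]

/-- The gate constraint says that the variable has the right value. -/
theorem ev_gateCon {ts : List ℕ} {X ye σ : ℕ → ℝ} {r s v j : ℕ} {g : AGate} {prev : List ℝ}
    (hg : g.WF r s j) (hprev : ∀ i < j, σ (v + i) = prev.getD i 0) :
    ev X ye σ (gateCon ts v j (toGt g)) = 0 ↔
      σ (v + j) = g.value (fun i => X (ts.idxOf i)) (fun i => ye (ts.idxOf i)) prev := by
  cases g with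
  | const z =>
    have hz : ∀ b : Bool, (b = true ↔ ¬ z < 0) →
        Mono.eval X (mkY ye σ) (b, z.natAbs, []) = -(z : ℝ) := by
      intro b hb
      by_cases h : z < 0
      · have h1 : (z.natAbs : ℤ) = -z := by omega
        have hb' : b = false := by
          cases b
          · rfl
          · exact absurd h (hb.1 rfl)
        have h2 : ((z.natAbs : ℤ) : ℝ) = ((-z : ℤ) : ℝ) := by rw [h1]
        subst hb'
        simpa [Mono.eval, Mono.coef] using h2
      · have h1 : (z.natAbs : ℤ) = z := by omega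
        have hb' : b = true := hb.2 h
        have h2 : ((z.natAbs : ℤ) : ℝ) = ((z : ℤ) : ℝ) := by rw [h1]
        subst hb'
        simpa [Mono.eval, Mono.coef] using h2
    simp only [gateCon, toGt, if_true, ev_cons, ev_nil, eval_pm, List.map_cons, List.map_nil,
      List.prod_cons, List.prod_nil, mul_one, elim_Av, AGate.value]
    rw [hz _ (by by_cases h : z < 0 <;> simp [h])]
    constructor
    · intro h; linarith
    · intro h; linarith
  | varX i =>
    simp only [gateCon, toGt, AGate.value]
    simp only [one_ne_zero, if_false, if_true, ev_cons, ev_nil, eval_pm, eval_nm, List.map_cons,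
      List.map_nil, List.prod_cons, List.prod_nil, mul_one, elim_Av, Sum.elim_inl]
    constructor
    · intro h; linarith
    · intro h; linarith
  | varY i =>
    have h21 : ¬ ((2 : ℕ) = 0) := by omega
    have h22 : ¬ ((2 : ℕ) = 1) := by omega
    simp only [gateCon, toGt, h21, h22, if_false, if_true, ev_cons, ev_nil, eval_pm, eval_nm,
      List.map_cons, List.map_nil, List.prod_cons, List.prod_nil, mul_one, elim_Av, AGate.value,
      elim_even]
    constructor
    · intro h; linarith
    · intro h; linarith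
  | add a b =>
    have h1 := hprev a hg.1
    have h2 := hprev b hg.2
    have h30 : ¬ ((3 : ℕ) = 0) := by omega
    have h31 : ¬ ((3 : ℕ) = 1) := by omega
    have h32 : ¬ ((3 : ℕ) = 2) := by omega
    simp only [gateCon, toGt, h30, h31, h32, if_false, if_true, ev_cons, ev_nil, eval_pm, eval_nm,
      List.map_cons, List.map_nil, List.prod_cons, List.prod_nil, mul_one, elim_Av, AGate.value,
      h1, h2]
    constructor
    · intro h; linarith
    · intro h; linarith
  | sub a b =>
    have h1 := hprev a hg.1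
    have h2 := hprev b hg.2
    have h30 : ¬ ((4 : ℕ) = 0) := by omega
    have h31 : ¬ ((4 : ℕ) = 1) := by omega
    have h32 : ¬ ((4 : ℕ) = 2) := by omega
    have h33 : ¬ ((4 : ℕ) = 3) := by omega
    simp only [gateCon, toGt, h30, h31, h32, h33, if_false, if_true, ev_cons, ev_nil, eval_pm,
      eval_nm, List.map_cons, List.map_nil, List.prod_cons, List.prod_nil, mul_one, elim_Av,
      AGate.value, h1, h2]
    constructor
    · intro h; linarith
    · intro h; linarith
  | mul a b =>
    have h1 := hprev a hg.1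
    have h2 := hprev b hg.2
    have h30 : ¬ ((5 : ℕ) = 0) := by omega
    have h31 : ¬ ((5 : ℕ) = 1) := by omega
    have h32 : ¬ ((5 : ℕ) = 2) := by omega
    have h33 : ¬ ((5 : ℕ) = 3) := by omega
    have h34 : ¬ ((5 : ℕ) = 4) := by omega
    simp only [gateCon, toGt, h30, h31, h32, h33, h34, if_false, ev_cons, ev_nil, eval_pm,
      eval_nm, List.map_cons, List.map_nil, List.prod_cons, List.prod_nil, mul_one, elim_Av,
      AGate.value, h1, h2]
    constructor
    · intro h; linarith
    · intro h; linarith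

theorem sat_gatesCon {ts : List ℕ} {X ye σ : ℕ → ℝ} {r s v : ℕ} {c : List AGate}
    (hc : gatesWF r s c) :
    Sat X ye σ (gatesCon ts v (rgates c)) ↔ ∀ i < c.length, σ (v + i) =
      (circuitValues (fun i => X (ts.idxOf i)) (fun i => ye (ts.idxOf i)) c).getD i 0 := by
  induction c using List.reverseRecOn with
  | nil => simp [gatesCon]
  | append_singleton c g ih =>
    obtain ⟨h1, h2⟩ := gatesWF_append.1 hc
    have ih := ih h1
    rw [rgates_append, gatesCon, sat_cons, length_rgates, ih, circuitValues_append]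
    set L := circuitValues (fun i => X (ts.idxOf i)) (fun i => ye (ts.idxOf i)) c with hL
    have hLl : L.length = c.length := by simp [hL]
    have hget : ∀ i < c.length, ∀ z : ℝ, (L ++ [z]).getD i 0 = L.getD i 0 := by
      intro i hi z
      rw [List.getD_append _ _ _ _ (by omega)]
    have hget' : ∀ z : ℝ, (L ++ [z]).getD c.length 0 = z := by
      intro z
      rw [List.getD_append_right _ _ _ _ (by omega), hLl]
      simp
    constructor
    · rintro ⟨h3, h4⟩ i hi
      rw [ev_gateCon h2 h4] at h3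
      simp only [List.length_append, List.length_cons, List.length_nil, zero_add] at hi
      rcases Nat.lt_or_ge i c.length with h | h
      · rw [hget i h]; exact h4 i h
      · have : i = c.length := by omega
        subst this
        rw [hget']; exact h3
    · intro h
      have h4 : ∀ i < c.length, σ (v + i) = L.getD i 0 := by
        intro i hi
        have := h i (by simp; omega)
        rwa [hget i hi] at this
      refine ⟨(ev_gateCon h2 h4).2 ?_, h4⟩
      have := h c.length (by simp)
      rwa [hget'] at this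

theorem circuitValue_eq {x y : ℕ → ℝ} {c : List AGate} (hc : c ≠ []) :
    circuitValue x y c = (circuitValues x y c).getD (c.length - 1) 0 := by
  unfold circuitValue
  have h : circuitValues x y c ≠ [] := by
    intro h
    have := length_circuitValues x y c
    rw [h] at this
    simp only [List.length_nil] at this
    exact hc (List.length_eq_zero_iff.1 this.symm)
  rw [List.getLastD_eq_getLast?, List.getLast?_eq_getElem?, length_circuitValues]
  rfl

/-! ### formulas -/

/-- next free variable after a formula -/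
def nv : Form → ℕ → ℕ
  | Form.eqZero c, v => v + 4 + c.length
  | Form.pos c, v => v + 4 + c.length
  | Form.and φ ψ, v => nv φ (nv ψ v) + 4
  | Form.or φ ψ, v => nv φ (nv ψ v) + 4
  | Form.not φ, v => nv φ v + 4

/-- truth variable of a formula -/
def rt : Form → ℕ → ℕ
  | Form.eqZero _, v => v
  | Form.pos _, v => v
  | Form.and φ ψ, v => nv φ (nv ψ v)
  | Form.or φ ψ, v => nv φ (nv ψ v)
  | Form.not φ, v => nv φ v

/-- constraints of a formula -/
def con (ts : List ℕ) : Form → ℕ → List ℕ → List SPoly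
  | Form.eqZero c, v, S => tokCon ts v (S.getD 0 0) (S.getD 1 0) (6, rgates c)
  | Form.pos c, v, S => tokCon ts v (S.getD 0 0) (S.getD 1 0) (7, rgates c)
  | Form.and φ ψ, v, S => tokCon ts (nv φ (nv ψ v)) (rt φ (nv ψ v)) (rt ψ v) (8, []) ++
      (con ts φ (nv ψ v) (rt ψ v :: S) ++ con ts ψ v S)
  | Form.or φ ψ, v, S => tokCon ts (nv φ (nv ψ v)) (rt φ (nv ψ v)) (rt ψ v) (9, []) ++
      (con ts φ (nv ψ v) (rt ψ v :: S) ++ con ts ψ v S)
  | Form.not φ, v, S => tokCon ts (nv φ v) (rt φ v) (S.getD 0 0) (10, []) ++ con ts φ v S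

theorem foldl_cStep (ts : List ℕ) (φ : Form) (v : ℕ) (S : List ℕ) (cs : List SPoly) :
    (rtoks φ).foldl (cStep ts) (v, S, cs) = (nv φ v, rt φ v :: S, con ts φ v S ++ cs) := by
  induction φ generalizing v S cs with
  | eqZero c => simp [rtoks, cStep, nextVar, nextStack, nv, rt, con]
  | pos c => simp [rtoks, cStep, nextVar, nextStack, nv, rt, con]
  | and φ ψ ih1 ih2 =>
    simp [rtoks, List.foldl_append, ih1, ih2, cStep, nextVar, nextStack, nv, rt, con]
  | or φ ψ ih1 ih2 =>
    simp [rtoks, List.foldl_append, ih1, ih2, cStep, nextVar, nextStack, nv, rt, con]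
  | not φ ih =>
    simp [rtoks, List.foldl_append, ih, cStep, nextVar, nextStack, nv, rt, con]

theorem rt_bounds (φ : Form) (v : ℕ) : v ≤ rt φ v ∧ rt φ v < nv φ v := by
  induction φ generalizing v with
  | eqZero c => simp only [rt, nv]; omega
  | pos c => simp only [rt, nv]; omega
  | and φ ψ ih1 ih2 =>
    have h1 := ih2 v
    have h2 := ih1 (nv ψ v)
    simp only [rt, nv]; omega
  | or φ ψ ih1 ih2 =>
    have h1 := ih2 v
    have h2 := ih1 (nv ψ v)
    simp only [rt, nv]; omega
  | not φ ih =>
    have h1 := ih v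
    simp only [rt, nv]; omega

/-- the truth value as a real number -/
noncomputable def tv (p : Prop) : ℝ := by
  classical exact if p then 1 else 0

theorem tv_true {p : Prop} (h : p) : tv p = 1 := by simp [tv, h]

theorem tv_false {p : Prop} (h : ¬ p) : tv p = 0 := by simp [tv, h]

theorem eq_constraint {p t w : ℝ} (h1 : t * p = 0) (h2 : p * w - 1 + t = 0) : t = tv (p = 0) := by
  by_cases h : p = 0
  · rw [tv_true h]; subst h; linarith
  · rw [tv_false h]
    rcases mul_eq_zero.1 h1 with h3 | h3
    · exact h3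
    · exact absurd h3 h

theorem pos_constraint {p t u b a : ℝ} (h1 : p - u * u + b * b = 0) (h2 : u - u * t = 0)
    (h3 : b * t = 0) (h4 : u * a - t = 0) : t = tv (0 < p) := by
  by_cases h : 0 < p
  · rw [tv_true h]
    have hu : u ≠ 0 := by
      intro hu
      subst hu
      nlinarith [mul_self_nonneg b]
    have : u * (1 - t) = 0 := by linarith
    rcases mul_eq_zero.1 this with h5 | h5
    · exact absurd h5 hu
    · linarith
  · rw [tv_false h]
    by_contra ht
    have hb : b = 0 := by
      rcases mul_eq_zero.1 h3 with h5 | h5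
      · exact h5
      · exact absurd h5 ht
    have hu : u ≠ 0 := by
      intro hu
      subst hu
      apply ht
      linarith
    subst hb
    have : 0 < u * u := mul_self_pos.2 hu
    apply h
    linarith

/-- the last value of a circuit -/
theorem last_value {ts : List ℕ} {X ye σ : ℕ → ℝ} {r s v : ℕ} {c : List AGate}
    (hc : CircuitWF r s c) (h : Sat X ye σ (gatesCon ts (v + 4) (rgates c))) :
    σ (v + 3 + c.length) =
      circuitValue (fun i => X (ts.idxOf i)) (fun i => ye (ts.idxOf i)) c := by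
  have h1 := (sat_gatesCon hc.2).1 h (c.length - 1)
    (by have := List.length_pos_of_ne_nil hc.1; omega)
  have h2 : v + 4 + (c.length - 1) = v + 3 + c.length := by
    have := List.length_pos_of_ne_nil hc.1; omega
  rw [h2] at h1
  rw [h1, circuitValue_eq hc.1]

theorem sound {ts : List ℕ} {X ye σ : ℕ → ℝ} {r s : ℕ} (φ : Form) (hφ : φ.WF r s) (v : ℕ)
    (S : List ℕ) (h : Sat X ye σ (con ts φ v S)) :
    σ (rt φ v) = tv (φ.Holds (fun i => X (ts.idxOf i)) (fun i => ye (ts.idxOf i))) := by
  induction φ generalizing v S with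
  | eqZero c =>
    simp only [con, tokCon, if_true, sat_cons, length_rgates] at h
    obtain ⟨h1, h2, h3⟩ := h
    have hp := last_value hφ h3
    simp only [ev_cons, ev_nil, eval_pm, eval_nm, List.map_cons, List.map_nil, List.prod_cons,
      List.prod_nil, mul_one, elim_Av, hp, add_zero] at h1 h2
    simp only [rt, Form.Holds]
    refine eq_constraint h1 ?_ (w := σ (v + 1))
    linarith
  | pos c =>
    have h76 : ¬ ((7 : ℕ) = 6) := by omega
    simp only [con, tokCon, if_true, h76, if_false, sat_cons, length_rgates] at h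
    obtain ⟨h1, h2, h3, h4, h5⟩ := h
    have hp := last_value hφ h5
    simp only [ev_cons, ev_nil, eval_pm, eval_nm, List.map_cons, List.map_nil, List.prod_cons,
      List.prod_nil, mul_one, elim_Av, hp, add_zero] at h1 h2 h3 h4
    simp only [rt, Form.Holds]
    refine pos_constraint (u := σ (v + 1)) (b := σ (v + 2)) (a := σ (v + 3)) ?_ ?_ ?_ ?_
    · linarith
    · linarith
    · linarith
    · linarith
  | and φ ψ ih1 ih2 =>
    have h86 : ¬ ((8 : ℕ) = 6) := by omega
    have h87 : ¬ ((8 : ℕ) = 7) := by omega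
    simp only [con, tokCon, if_true, h86, h87, if_false, sat_append, sat_cons] at h
    obtain ⟨⟨h1, _⟩, h2, h3⟩ := h
    have i1 := ih1 hφ.1 _ _ h2
    have i2 := ih2 hφ.2 _ _ h3
    simp only [ev_cons, ev_nil, eval_pm, eval_nm, List.map_cons, List.map_nil, List.prod_cons,
      List.prod_nil, mul_one, elim_Av, add_zero, i1, i2] at h1
    simp only [rt, Form.Holds]
    have h1' : σ (nv φ (nv ψ v)) = tv (Form.Holds (fun i => X (ts.idxOf i))
      (fun i => ye (ts.idxOf i)) φ) * tv (Form.Holds (fun i => X (ts.idxOf i))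
      (fun i => ye (ts.idxOf i)) ψ) := by linarith
    rw [h1']
    by_cases hA : Form.Holds (fun i => X (ts.idxOf i)) (fun i => ye (ts.idxOf i)) φ <;>
    by_cases hB : Form.Holds (fun i => X (ts.idxOf i)) (fun i => ye (ts.idxOf i)) ψ <;>
    simp [tv, hA, hB]
  | or φ ψ ih1 ih2 =>
    have h86 : ¬ ((9 : ℕ) = 6) := by omega
    have h87 : ¬ ((9 : ℕ) = 7) := by omega
    have h88 : ¬ ((9 : ℕ) = 8) := by omega
    simp only [con, tokCon, if_true, h86, h87, h88, if_false, sat_append, sat_cons] at h
    obtain ⟨⟨h1, _⟩, h2, h3⟩ := h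
    have i1 := ih1 hφ.1 _ _ h2
    have i2 := ih2 hφ.2 _ _ h3
    simp only [ev_cons, ev_nil, eval_pm, eval_nm, List.map_cons, List.map_nil, List.prod_cons,
      List.prod_nil, mul_one, elim_Av, add_zero, i1, i2] at h1
    simp only [rt, Form.Holds]
    have h1' : σ (nv φ (nv ψ v)) = tv (Form.Holds (fun i => X (ts.idxOf i))
      (fun i => ye (ts.idxOf i)) φ) + tv (Form.Holds (fun i => X (ts.idxOf i))
      (fun i => ye (ts.idxOf i)) ψ) - tv (Form.Holds (fun i => X (ts.idxOf i))
      (fun i => ye (ts.idxOf i)) φ) * tv (Form.Holds (fun i => X (ts.idxOf i))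
      (fun i => ye (ts.idxOf i)) ψ) := by linarith
    rw [h1']
    by_cases hA : Form.Holds (fun i => X (ts.idxOf i)) (fun i => ye (ts.idxOf i)) φ <;>
    by_cases hB : Form.Holds (fun i => X (ts.idxOf i)) (fun i => ye (ts.idxOf i)) ψ <;>
    simp [tv, hA, hB]
  | not φ ih =>
    have h86 : ¬ ((10 : ℕ) = 6) := by omega
    have h87 : ¬ ((10 : ℕ) = 7) := by omega
    have h88 : ¬ ((10 : ℕ) = 8) := by omega
    have h89 : ¬ ((10 : ℕ) = 9) := by omega
    simp only [con, tokCon, h86, h87, h88, h89, if_false, sat_append, sat_cons] at h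
    obtain ⟨⟨h1, _⟩, h2⟩ := h
    have i1 := ih hφ _ _ h2
    simp only [ev_cons, ev_nil, eval_pm, eval_nm, List.map_cons, List.map_nil, List.prod_cons,
      List.prod_nil, mul_one, elim_Av, add_zero, i1] at h1
    simp only [rt, Form.Holds]
    have h1' : σ (nv φ v) = 1 - tv (Form.Holds (fun i => X (ts.idxOf i))
      (fun i => ye (ts.idxOf i)) φ) := by linarith
    rw [h1']
    by_cases hA : Form.Holds (fun i => X (ts.idxOf i)) (fun i => ye (ts.idxOf i)) φ <;>
    simp [tv, hA]

/-! ### completeness -/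

theorem sat_gatesCon_congr {ts : List ℕ} {X ye σ σ' : ℕ → ℝ} {r s v : ℕ} {c : List AGate}
    (hc : gatesWF r s c) (h : ∀ i < c.length, σ (v + i) = σ' (v + i))
    (hs : Sat X ye σ (gatesCon ts v (rgates c))) : Sat X ye σ' (gatesCon ts v (rgates c)) := by
  rw [sat_gatesCon hc] at hs ⊢
  intro i hi
  rw [← h i hi]
  exact hs i hi

theorem nv_ge (φ : Form) (v : ℕ) : v + 4 ≤ nv φ v := by
  induction φ generalizing v with
  | eqZero c => simp only [nv]; omega
  | pos c => simp only [nv]; omega
  | and φ ψ ih1 ih2 =>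
    have h1 := ih2 v
    have h2 := ih1 (nv ψ v)
    simp only [nv]; omega
  | or φ ψ ih1 ih2 =>
    have h1 := ih2 v
    have h2 := ih1 (nv ψ v)
    simp only [nv]; omega
  | not φ ih =>
    have h1 := ih v
    simp only [nv]; omega

theorem local_con {ts : List ℕ} {X ye : ℕ → ℝ} {r s : ℕ} (φ : Form) (hφ : φ.WF r s) (v : ℕ)
    (S : List ℕ) {σ σ' : ℕ → ℝ} (hσ : ∀ k, v ≤ k → k < nv φ v → σ k = σ' k)
    (h : Sat X ye σ (con ts φ v S)) : Sat X ye σ' (con ts φ v S) := by
  induction φ generalizing v S with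
  | eqZero c =>
    simp only [con, tokCon, if_true, sat_cons, length_rgates] at h ⊢
    simp only [nv] at hσ
    obtain ⟨h1, h2, h3⟩ := h
    refine ⟨?_, ?_, sat_gatesCon_congr hφ.2 (fun i hi => hσ _ (by omega) (by omega)) h3⟩
    · simpa [hσ v (by omega) (by omega), hσ (v + 3 + c.length) (by omega) (by omega)] using h1
    · simpa [hσ v (by omega) (by omega), hσ (v + 1) (by omega) (by omega),
        hσ (v + 3 + c.length) (by omega) (by omega)] using h2
  | pos c =>
    have h76 : ¬ ((7 : ℕ) = 6) := by omega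
    simp only [con, tokCon, if_true, h76, if_false, sat_cons, length_rgates] at h ⊢
    simp only [nv] at hσ
    obtain ⟨h1, h2, h3, h4, h5⟩ := h
    refine ⟨?_, ?_, ?_, ?_, sat_gatesCon_congr hφ.2 (fun i hi => hσ _ (by omega) (by omega)) h5⟩
    · simpa [hσ (v + 1) (by omega) (by omega), hσ (v + 2) (by omega) (by omega),
        hσ (v + 3 + c.length) (by omega) (by omega)] using h1
    · simpa [hσ v (by omega) (by omega), hσ (v + 1) (by omega) (by omega)] using h2
    · simpa [hσ v (by omega) (by omega), hσ (v + 2) (by omega) (by omega)] using h3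
    · simpa [hσ v (by omega) (by omega), hσ (v + 1) (by omega) (by omega),
        hσ (v + 3) (by omega) (by omega)] using h4
  | and φ ψ ih1 ih2 =>
    have h86 : ¬ ((8 : ℕ) = 6) := by omega
    have h87 : ¬ ((8 : ℕ) = 7) := by omega
    simp only [con, tokCon, if_true, h86, h87, if_false, sat_append, sat_cons] at h ⊢
    simp only [nv] at hσ
    obtain ⟨⟨h1, _⟩, h2, h3⟩ := h
    have b1 := rt_bounds φ (nv ψ v)
    have b2 := rt_bounds ψ v
    have b3 := nv_ge φ (nv ψ v)
    have b4 := nv_ge ψ v
    refine ⟨⟨?_, sat_nil _ _ _⟩, ih1 hφ.1 _ _ (fun k hk hk' => hσ k (by omega) (by omega)) h2,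
      ih2 hφ.2 _ _ (fun k hk hk' => hσ k (by omega) (by omega)) h3⟩
    simpa [hσ (rt φ (nv ψ v)) (by omega) (by omega), hσ (rt ψ v) (by omega) (by omega),
      hσ (nv φ (nv ψ v)) (by omega) (by omega)] using h1
  | or φ ψ ih1 ih2 =>
    have h86 : ¬ ((9 : ℕ) = 6) := by omega
    have h87 : ¬ ((9 : ℕ) = 7) := by omega
    have h88 : ¬ ((9 : ℕ) = 8) := by omega
    simp only [con, tokCon, if_true, h86, h87, h88, if_false, sat_append, sat_cons] at h ⊢
    simp only [nv] at hσ
    obtain ⟨⟨h1, _⟩, h2, h3⟩ := h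
    have b1 := rt_bounds φ (nv ψ v)
    have b2 := rt_bounds ψ v
    have b3 := nv_ge φ (nv ψ v)
    have b4 := nv_ge ψ v
    refine ⟨⟨?_, sat_nil _ _ _⟩, ih1 hφ.1 _ _ (fun k hk hk' => hσ k (by omega) (by omega)) h2,
      ih2 hφ.2 _ _ (fun k hk hk' => hσ k (by omega) (by omega)) h3⟩
    simpa [hσ (rt φ (nv ψ v)) (by omega) (by omega), hσ (rt ψ v) (by omega) (by omega),
      hσ (nv φ (nv ψ v)) (by omega) (by omega)] using h1
  | not φ ih =>
    have h86 : ¬ ((10 : ℕ) = 6) := by omega
    have h87 : ¬ ((10 : ℕ) = 7) := by omega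
    have h88 : ¬ ((10 : ℕ) = 8) := by omega
    have h89 : ¬ ((10 : ℕ) = 9) := by omega
    simp only [con, tokCon, h86, h87, h88, h89, if_false, sat_append, sat_cons] at h ⊢
    simp only [nv] at hσ
    obtain ⟨⟨h1, _⟩, h2⟩ := h
    have b1 := rt_bounds φ v
    have b3 := nv_ge φ v
    refine ⟨⟨?_, sat_nil _ _ _⟩, ih hφ _ _ (fun k hk hk' => hσ k (by omega) (by omega)) h2⟩
    simpa [hσ (rt φ v) (by omega) (by omega), hσ (nv φ v) (by omega) (by omega)] using h1

/-- values of the gates, as an assignment of the auxiliary variables -/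
theorem exists_gates_assignment {ts : List ℕ} {X ye : ℕ → ℝ} {r s : ℕ} {c : List AGate}
    (hc : gatesWF r s c) (v : ℕ) (σ : ℕ → ℝ) :
    ∃ σ' : ℕ → ℝ, (∀ k < v, σ' k = σ k) ∧ Sat X ye σ' (gatesCon ts v (rgates c)) := by
  refine ⟨fun k => if k < v then σ k else
    (circuitValues (fun i => X (ts.idxOf i)) (fun i => ye (ts.idxOf i)) c).getD (k - v) 0,
    fun k hk => by simp [hk], ?_⟩
  rw [sat_gatesCon hc]
  intro i hi
  simp

theorem complete {ts : List ℕ} {X ye : ℕ → ℝ} {r s : ℕ} (φ : Form) (hφ : φ.WF r s) (v : ℕ)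
    (S : List ℕ) (σ : ℕ → ℝ) :
    ∃ σ' : ℕ → ℝ, (∀ k < v, σ' k = σ k) ∧ Sat X ye σ' (con ts φ v S) := by
  induction φ generalizing v S σ with
  | eqZero c =>
    obtain ⟨p, hp⟩ : ∃ p : ℝ, p = circuitValue (fun i => X (ts.idxOf i))
      (fun i => ye (ts.idxOf i)) c := ⟨_, rfl⟩
    obtain ⟨σ', h1, h2⟩ := exists_gates_assignment (ts := ts) (X := X) (ye := ye) hφ.2 (v + 4)
      (fun k => if k < v then σ k else if k = v then tv (p = 0) else p⁻¹)
    have hl := last_value hφ h2
    refine ⟨σ', fun k hk => by rw [h1 k (by omega)]; simp [hk], ?_⟩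
    have e0 : σ' v = tv (p = 0) := by rw [h1 v (by omega)]; simp
    have e1 : σ' (v + 1) = p⁻¹ := by rw [h1 _ (by omega)]; simp
    simp only [con, tokCon, if_true, sat_cons, length_rgates]
    refine ⟨?_, ?_, h2⟩
    · simp only [ev_cons, ev_nil, eval_pm, List.map_cons, List.map_nil, List.prod_cons,
        List.prod_nil, mul_one, elim_Av, hl, add_zero, e0, ← hp]
      by_cases h : p = 0
      · simp [h]
      · simp [tv, h]
    · simp only [ev_cons, ev_nil, eval_pm, eval_nm, List.map_cons, List.map_nil, List.prod_cons,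
        List.prod_nil, mul_one, elim_Av, hl, add_zero, e0, e1, ← hp]
      by_cases h : p = 0
      · simp [tv, h]
      · simp [tv, h]
  | pos c =>
    obtain ⟨p, hp⟩ : ∃ p : ℝ, p = circuitValue (fun i => X (ts.idxOf i))
      (fun i => ye (ts.idxOf i)) c := ⟨_, rfl⟩
    obtain ⟨σ', h1, h2⟩ := exists_gates_assignment (ts := ts) (X := X) (ye := ye) hφ.2 (v + 4)
      (fun k => if k < v then σ k else if k = v then tv (0 < p) else
        if k = v + 1 then tv (0 < p) * Real.sqrt p else
        if k = v + 2 then Real.sqrt (-p) else (Real.sqrt p)⁻¹)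
    have hl := last_value hφ h2
    refine ⟨σ', fun k hk => by rw [h1 k (by omega)]; simp [hk], ?_⟩
    have e0 : σ' v = tv (0 < p) := by rw [h1 v (by omega)]; simp
    have e1 : σ' (v + 1) = tv (0 < p) * Real.sqrt p := by rw [h1 _ (by omega)]; simp
    have e2 : σ' (v + 2) = Real.sqrt (-p) := by rw [h1 _ (by omega)]; simp
    have e3 : σ' (v + 3) = (Real.sqrt p)⁻¹ := by rw [h1 _ (by omega)]; simp
    have h76 : ¬ ((7 : ℕ) = 6) := by omega
    simp only [con, tokCon, if_true, h76, if_false, sat_cons, length_rgates]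
    by_cases h : 0 < p
    · have s1 : Real.sqrt p * Real.sqrt p = p := Real.mul_self_sqrt h.le
      have s2 : Real.sqrt (-p) = 0 := Real.sqrt_eq_zero_of_nonpos (by linarith)
      have s3 : Real.sqrt p ≠ 0 := (Real.sqrt_pos.2 h).ne'
      rw [tv_true h] at e0 e1
      rw [s2] at e2
      rw [one_mul] at e1
      refine ⟨?_, ?_, ?_, ?_, h2⟩
      · simp only [ev_cons, ev_nil, eval_pm, eval_nm, List.map_cons, List.map_nil, List.prod_cons,
          List.prod_nil, mul_one, elim_Av, hl, add_zero, e1, e2, ← hp, s1]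
        ring
      · simp only [ev_cons, ev_nil, eval_pm, eval_nm, List.map_cons, List.map_nil, List.prod_cons,
          List.prod_nil, mul_one, elim_Av, add_zero, e0, e1]
        ring
      · simp only [ev_cons, ev_nil, eval_pm, List.map_cons, List.map_nil, List.prod_cons,
          List.prod_nil, mul_one, elim_Av, add_zero, e0, e2]
      · simp only [ev_cons, ev_nil, eval_pm, eval_nm, List.map_cons, List.map_nil, List.prod_cons,
          List.prod_nil, mul_one, elim_Av, add_zero, e0, e1, e3, mul_inv_cancel₀ s3]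
        ring
    · have s1 : Real.sqrt (-p) * Real.sqrt (-p) = -p := Real.mul_self_sqrt (by linarith)
      rw [tv_false h] at e0 e1
      rw [zero_mul] at e1
      refine ⟨?_, ?_, ?_, ?_, h2⟩
      · simp only [ev_cons, ev_nil, eval_pm, eval_nm, List.map_cons, List.map_nil, List.prod_cons,
          List.prod_nil, mul_one, elim_Av, hl, add_zero, e1, e2, ← hp, s1]
        ring
      · simp only [ev_cons, ev_nil, eval_pm, eval_nm, List.map_cons, List.map_nil, List.prod_cons,
          List.prod_nil, mul_one, elim_Av, add_zero, e0, e1]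
        ring
      · simp only [ev_cons, ev_nil, eval_pm, List.map_cons, List.map_nil, List.prod_cons,
          List.prod_nil, mul_one, elim_Av, add_zero, e0, mul_zero]
      · simp only [ev_cons, ev_nil, eval_pm, eval_nm, List.map_cons, List.map_nil, List.prod_cons,
          List.prod_nil, mul_one, elim_Av, add_zero, e0, e1]
        ring
  | and φ ψ ih1 ih2 =>
    obtain ⟨σ1, h1, h1'⟩ := ih2 hφ.2 v S σ
    obtain ⟨σ2, h2, h2'⟩ := ih1 hφ.1 (nv ψ v) (rt ψ v :: S) σ1
    have b1 := rt_bounds φ (nv ψ v)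
    have b2 := rt_bounds ψ v
    have b3 := nv_ge φ (nv ψ v)
    have b4 := nv_ge ψ v
    refine ⟨Function.update σ2 (nv φ (nv ψ v)) (σ2 (rt φ (nv ψ v)) * σ2 (rt ψ v)), ?_, ?_⟩
    · intro k hk
      rw [Function.update_of_ne (by omega), h2 k (by omega), h1 k hk]
    · have h86 : ¬ ((8 : ℕ) = 6) := by omega
      have h87 : ¬ ((8 : ℕ) = 7) := by omega
      simp only [con, tokCon, if_true, h86, h87, if_false, sat_append, sat_cons]
      refine ⟨⟨?_, sat_nil _ _ _⟩, local_con φ hφ.1 _ _ (fun k hk hk' => ?_) h2',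
        local_con ψ hφ.2 _ _ (fun k hk hk' => ?_) h1'⟩
      · have n1 : rt φ (nv ψ v) ≠ nv φ (nv ψ v) := by omega
        have n2 : rt ψ v ≠ nv φ (nv ψ v) := by omega
        simp [Function.update_of_ne n1, Function.update_of_ne n2]
      · rw [Function.update_of_ne (by omega)]
      · rw [Function.update_of_ne (by omega), h2 k (by omega)]
  | or φ ψ ih1 ih2 =>
    obtain ⟨σ1, h1, h1'⟩ := ih2 hφ.2 v S σ
    obtain ⟨σ2, h2, h2'⟩ := ih1 hφ.1 (nv ψ v) (rt ψ v :: S) σ1
    have b1 := rt_bounds φ (nv ψ v)
    have b2 := rt_bounds ψ v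
    have b3 := nv_ge φ (nv ψ v)
    have b4 := nv_ge ψ v
    refine ⟨Function.update σ2 (nv φ (nv ψ v)) (σ2 (rt φ (nv ψ v)) + σ2 (rt ψ v) -
      σ2 (rt φ (nv ψ v)) * σ2 (rt ψ v)), ?_, ?_⟩
    · intro k hk
      rw [Function.update_of_ne (by omega), h2 k (by omega), h1 k hk]
    · have h86 : ¬ ((9 : ℕ) = 6) := by omega
      have h87 : ¬ ((9 : ℕ) = 7) := by omega
      have h88 : ¬ ((9 : ℕ) = 8) := by omega
      simp only [con, tokCon, if_true, h86, h87, h88, if_false, sat_append, sat_cons]
      refine ⟨⟨?_, sat_nil _ _ _⟩, local_con φ hφ.1 _ _ (fun k hk hk' => ?_) h2',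
        local_con ψ hφ.2 _ _ (fun k hk hk' => ?_) h1'⟩
      · have n1 : rt φ (nv ψ v) ≠ nv φ (nv ψ v) := by omega
        have n2 : rt ψ v ≠ nv φ (nv ψ v) := by omega
        simp only [ev_cons, ev_nil, eval_pm, eval_nm, List.map_cons, List.map_nil, List.prod_cons,
          List.prod_nil, mul_one, elim_Av, add_zero, Function.update_self,
          Function.update_of_ne n1, Function.update_of_ne n2]
        ring
      · rw [Function.update_of_ne (by omega)]
      · rw [Function.update_of_ne (by omega), h2 k (by omega)]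
  | not φ ih =>
    obtain ⟨σ1, h1, h1'⟩ := ih hφ v S σ
    have b1 := rt_bounds φ v
    have b3 := nv_ge φ v
    refine ⟨Function.update σ1 (nv φ v) (1 - σ1 (rt φ v)), ?_, ?_⟩
    · intro k hk
      rw [Function.update_of_ne (by omega), h1 k hk]
    · have h86 : ¬ ((10 : ℕ) = 6) := by omega
      have h87 : ¬ ((10 : ℕ) = 7) := by omega
      have h88 : ¬ ((10 : ℕ) = 8) := by omega
      have h89 : ¬ ((10 : ℕ) = 9) := by omega
      simp only [con, tokCon, h86, h87, h88, h89, if_false, sat_append, sat_cons]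
      refine ⟨⟨?_, sat_nil _ _ _⟩, local_con φ hφ _ _ (fun k hk hk' => ?_) h1'⟩
      · have n1 : rt φ v ≠ nv φ v := by omega
        simp only [ev_cons, ev_nil, eval_pm, eval_nm, List.map_cons, List.map_nil, List.prod_cons,
          List.prod_nil, mul_one, elim_Av, add_zero, Function.update_self,
          Function.update_of_ne n1]
        ring
      · rw [Function.update_of_ne (by omega)]

/-! ### dependence of truth on the variables -/

theorem value_congr {x y x' y' : ℕ → ℝ} {r s t : ℕ} {g : AGate} (hg : g.WF r s t)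
    (hx : ∀ i ∈ g.toNats, i < r → x i = x' i) (hy : ∀ i ∈ g.toNats, i < s → y i = y' i)
    (prev : List ℝ) : g.value x y prev = g.value x' y' prev := by
  cases g with
  | varX i => exact hx i (by simp [AGate.toNats]) hg
  | varY i => exact hy i (by simp [AGate.toNats]) hg
  | _ => rfl

theorem circuitValues_congr {x y x' y' : ℕ → ℝ} {r s : ℕ} {c : List AGate} (hc : gatesWF r s c)
    (hx : ∀ i ∈ c.flatMap AGate.toNats, i < r → x i = x' i)
    (hy : ∀ i ∈ c.flatMap AGate.toNats, i < s → y i = y' i) :
    circuitValues x y c = circuitValues x' y' c := by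
  induction c using List.reverseRecOn with
  | nil => rfl
  | append_singleton c g ih =>
    obtain ⟨h1, h2⟩ := gatesWF_append.1 hc
    rw [circuitValues_append, circuitValues_append,
      ih h1 (fun i hi => hx i (by simp only [List.flatMap_append, List.mem_append]; exact .inl hi))
        (fun i hi => hy i (by simp only [List.flatMap_append, List.mem_append]; exact .inl hi)),
      value_congr h2 (fun i hi => hx i (by simp [hi])) (fun i hi => hy i (by simp [hi]))]

theorem holds_congr {x y x' y' : ℕ → ℝ} {r s : ℕ} (φ : Form) (hφ : φ.WF r s)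
    (hx : ∀ i ∈ φ.toNats, i < r → x i = x' i) (hy : ∀ i ∈ φ.toNats, i < s → y i = y' i) :
    φ.Holds x y ↔ φ.Holds x' y' := by
  induction φ with
  | eqZero c =>
    simp only [Form.Holds, circuitValue]
    rw [circuitValues_congr hφ.2 (fun i hi => hx i (by simp [Form.toNats, circuitToNats, hi]))
      (fun i hi => hy i (by simp [Form.toNats, circuitToNats, hi]))]
  | pos c =>
    simp only [Form.Holds, circuitValue]
    rw [circuitValues_congr hφ.2 (fun i hi => hx i (by simp [Form.toNats, circuitToNats, hi]))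
      (fun i hi => hy i (by simp [Form.toNats, circuitToNats, hi]))]
  | and φ ψ ih1 ih2 =>
    simp only [Form.Holds]
    rw [ih1 hφ.1 (fun i hi => hx i (by simp [Form.toNats, hi]))
      (fun i hi => hy i (by simp [Form.toNats, hi])),
      ih2 hφ.2 (fun i hi => hx i (by simp [Form.toNats, hi]))
      (fun i hi => hy i (by simp [Form.toNats, hi]))]
  | or φ ψ ih1 ih2 =>
    simp only [Form.Holds]
    rw [ih1 hφ.1 (fun i hi => hx i (by simp [Form.toNats, hi]))
      (fun i hi => hy i (by simp [Form.toNats, hi])),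
      ih2 hφ.2 (fun i hi => hx i (by simp [Form.toNats, hi]))
      (fun i hi => hy i (by simp [Form.toNats, hi]))]
  | not φ ih =>
    simp only [Form.Holds]
    rw [ih hφ (fun i hi => hx i (by simp [Form.toNats, hi]))
      (fun i hi => hy i (by simp [Form.toNats, hi]))]

/-! ### the main statement -/

theorem sumSq_eq_zero {X ye σ : ℕ → ℝ} {cs : List SPoly} :
    sumSq X (mkY ye σ) cs = 0 ↔ Sat X ye σ cs := by
  unfold sumSq Sat ev
  induction cs with
  | nil => simp
  | cons c cs ih =>
    simp only [List.map_cons, List.sum_cons, List.mem_cons, forall_eq_or_imp, ← ih]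
    have h1 : 0 ≤ SPoly.eval X (mkY ye σ) c ^ 2 := sq_nonneg _
    have h2 : 0 ≤ (cs.map fun c => SPoly.eval X (mkY ye σ) c ^ 2).sum := by
      apply List.sum_nonneg
      intro a ha
      obtain ⟨c, _, rfl⟩ := List.mem_map.1 ha
      exact sq_nonneg _
    constructor
    · intro h
      have h3 : SPoly.eval X (mkY ye σ) c ^ 2 = 0 := by linarith
      exact ⟨by simpa using h3, by linarith⟩
    · rintro ⟨h3, h4⟩
      rw [h3, h4]; simp

theorem isTrue_iff {S : Sentence} (hS : S.WF) :
    S.IsTrue ↔ ∃ X : ℕ → ℝ, ∀ Y : ℕ → ℝ, sumSq X Y (consNats S.toNats) ≠ 0 := by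
  set ts := S.toNats with hts
  have htk : toks (ts.drop 2) = rtoks S.body := by
    rw [hts]
    simp only [Sentence.toNats, List.drop_succ_cons, List.drop_zero]
    exact toks_toNats _
  have hcons : consNats ts = [pm [Av (rt S.body 0)]] :: con ts S.body 0 [] := by
    unfold consNats
    rw [htk, foldl_cStep]
    simp
  have hget : ∀ i ∈ S.body.toNats, ts.getD (ts.idxOf i) 0 = i := by
    intro i hi
    have hmem : i ∈ ts := by rw [hts]; simp [Sentence.toNats, hi]
    have hlt : ts.idxOf i < ts.length := List.idxOf_lt_length_iff.2 hmem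
    rw [List.getD_eq_getElem _ _ hlt]
    exact List.getElem_idxOf hlt
  constructor
  · rintro ⟨x, hx⟩
    refine ⟨fun k => extend x (ts.getD k 0), fun Y hY => ?_⟩
    rw [← mkY_eta Y, sumSq_eq_zero, hcons, sat_cons] at hY
    obtain ⟨h1, h2⟩ := hY
    have h3 := sound S.body hS 0 [] h2
    have h4 : ¬ S.body.Holds (fun i => extend x (ts.getD (ts.idxOf i) 0))
        (fun i => Y (2 * ts.idxOf i)) := by
      intro h
      rw [tv_true h] at h3
      simp [h3] at h1
    apply h4
    have h5 := hx (fun i => Y (2 * ts.idxOf (i : ℕ)))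
    refine (holds_congr S.body hS ?_ ?_).1 h5
    · intro i hi _
      simp only [hget i hi]
    · intro i hi hi'
      simp [extend, hi']
  · rintro ⟨X, hX⟩
    refine ⟨fun i => X (ts.idxOf (i : ℕ)), fun y => ?_⟩
    by_contra hy
    obtain ⟨σ, _, hσ⟩ := complete (ts := ts) (X := X) (ye := fun k => extend y (ts.getD k 0))
      S.body hS 0 [] (fun _ => 0)
    apply hX (mkY (fun k => extend y (ts.getD k 0)) σ)
    rw [sumSq_eq_zero, hcons, sat_cons]
    refine ⟨?_, hσ⟩
    have h3 := sound S.body hS 0 [] hσ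
    have h4 : ¬ S.body.Holds (fun i => X (ts.idxOf i))
        (fun i => extend y (ts.getD (ts.idxOf i) 0)) := by
      intro h
      apply hy
      refine (holds_congr S.body hS ?_ ?_).1 h
      · intro i hi hi'
        simp [extend, hi']
      · intro i hi hi'
        simp only [hget i hi]
    rw [tv_false h4] at h3
    simp [h3]

/-- **Main statement of the parser**. -/
theorem eatr_iff {w : List Bool} : w ∈ EATR ↔
    Valid w ∧ ∃ X : ℕ → ℝ, ∀ Y : ℕ → ℝ, sumSq X Y (constraints w) ≠ 0 := by
  constructor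
  · rintro ⟨S, hS1, hS2, rfl⟩
    refine ⟨valid_iff.2 ⟨S, hS1, rfl⟩, ?_⟩
    rw [isTrue_iff hS1] at hS2
    unfold constraints
    rwa [encode_eq, decTok_encTok]
  · rintro ⟨h1, h2⟩
    obtain ⟨S, hS1, rfl⟩ := valid_iff.1 h1
    refine ⟨S, hS1, ?_, rfl⟩
    rw [isTrue_iff hS1]
    unfold constraints at h2
    rwa [encode_eq, decTok_encTok] at h2

end Crest.Agent.R316.Parse
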