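import Mathlib
import Crest.Prelude.Def_RealEA

/-!
# R316 / Parse / Defs : from bit strings to systems of quadratic constraints (definitions)

Everything here is a plain function on lists and numbers, designed to be poly-time.

* `decTok : List Bool → List ℕ` reads a bit string as a list of numbers (junk on bad strings);
* `toks : List ℕ → List FTok` reads the tokens of the formula; the result is in REVERSED order,
  the gates of every token are in reversed order as well;
* `Valid w` : all checks;
* `constraints w : List SPoly` : the constraints; each is a sparse polynomial of degree `≤ 2`.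
-/

set_option autoImplicit false

namespace Crest.Agent.R316.Parse

open Crest.RealEA

/-! ### sparse polynomials -/

/-- sign (`true` = negative), absolute value of the coefficient, product of variables
(`inl i` is `X_i`, `inr j` is `Y_j`). -/
abbrev Mono : Type := Bool × ℕ × List (ℕ ⊕ ℕ)

/-- a sparse polynomial -/
abbrev SPoly : Type := List Mono

section eval
variable {R : Type*} [CommRing R]

/-- the coefficient -/
def Mono.coef (m : Mono) : ℤ := if m.1 then -(m.2.1 : ℤ) else (m.2.1 : ℤ)

/-- value of a monomial -/
def Mono.eval (x y : ℕ → R) (m : Mono) : R :=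
  (m.coef : R) * (m.2.2.map (Sum.elim x y)).prod

/-- value of a sparse polynomial -/
def SPoly.eval (x y : ℕ → R) (p : SPoly) : R := (p.map (Mono.eval x y)).sum

/-- value of the sum of squares of the constraints -/
def sumSq (x y : ℕ → R) (cs : List SPoly) : R := (cs.map fun c => SPoly.eval x y c ^ 2).sum

end eval

/-! ### reading numbers -/

/-- value of a list of binary digits, most significant first -/
def msbVal (l : List Bool) : ℕ := l.foldl (fun n b => 2 * n + b.toNat) 0

/-- state of the bit reader: first half of a pair, digits of the current number (most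
significant first), numbers read so far (reversed) -/
abbrev BSt : Type := Option Bool × List Bool × List ℕ

/-- one step of the bit reader -/
def bStep (s : BSt) (b : Bool) : BSt :=
  match s.1 with
  | none => (some b, s.2.1, s.2.2)
  | some h => if h = true then (none, b :: s.2.1, s.2.2)
      else (none, [], msbVal s.2.1 :: s.2.2)

/-- numbers presented by a bit string (junk on bad strings) -/
def decTok (w : List Bool) : List ℕ := (w.foldl bStep (none, [], [])).2.2.reverse

/-- the bit string presenting a list of numbers -/
def encTok (ts : List ℕ) : List Bool := ts.flatMap natBits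

/-! ### reading the formula -/

/-- a gate: tag and two arguments -/
abbrev Gt : Type := ℕ × ℕ × ℕ

/-- a token of the formula: tag `6..10` and the gates of the circuit -/
abbrev FTok : Type := ℕ × List Gt

/-- state of the token reader: phase, tag and argument read so far, list of tokens (reversed,
gates reversed). Phases: `0` = expecting a tag, `1` = expecting the length of a circuit,
`2` = expecting the first argument of a gate, `3` = expecting the second argument. -/
abbrev TSt : Type := ℕ × ℕ × ℕ × List FTok

/-- append a gate to the current token -/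
def addGate (g : Gt) (T : List FTok) : List FTok :=
  match T with
  | [] => []
  | t :: T => (t.1, g :: t.2) :: T

/-- one step of the token reader -/
def tStep (s : TSt) (t : ℕ) : TSt :=
  if s.1 = 0 then
    if t ≤ 5 then (2, t, 0, s.2.2.2)
    else if t ≤ 7 then (1, 0, 0, (t, []) :: s.2.2.2)
    else (0, 0, 0, (t, []) :: s.2.2.2)
  else if s.1 = 1 then (0, 0, 0, s.2.2.2)
  else if s.1 = 2 then
    if s.2.1 = 1 ∨ s.2.1 = 2 then (0, 0, 0, addGate (s.2.1, t, 0) s.2.2.2)
    else (3, s.2.1, t, s.2.2.2)
  else (0, 0, 0, addGate (s.2.1, s.2.2.1, t) s.2.2.2)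

/-- the tokens of a formula, in reversed order, with reversed lists of gates -/
def toks (l : List ℕ) : List FTok := (l.foldl tStep (0, 0, 0, [])).2.2.2

/-- numbers presenting a gate -/
def gtNats (g : Gt) : List ℕ := if g.1 = 1 ∨ g.1 = 2 then [g.1, g.2.1] else [g.1, g.2.1, g.2.2]

/-- numbers presenting a token (with reversed list of gates) -/
def tokNats (t : FTok) : List ℕ :=
  if t.1 ≤ 7 then t.1 :: t.2.length :: t.2.reverse.flatMap gtNats else [t.1]

/-! ### checks -/

/-- check of the gate `g`, which has `t` earlier gates -/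
def gateOK (r s t : ℕ) (g : Gt) : Prop :=
  (g.1 = 0 ∧ (g.2.1 = 0 ∨ (g.2.1 = 1 ∧ 0 < g.2.2))) ∨ (g.1 = 1 ∧ g.2.1 < r) ∨
    (g.1 = 2 ∧ g.2.1 < s) ∨ (3 ≤ g.1 ∧ g.1 ≤ 5 ∧ g.2.1 < t ∧ g.2.2 < t)

instance (r s t : ℕ) (g : Gt) : Decidable (gateOK r s t g) := by unfold gateOK; infer_instance

/-- check of a reversed list of gates -/
def gatesOK (r s : ℕ) : List Gt → Bool
  | [] => true
  | g :: l => decide (gateOK r s l.length g) && gatesOK r s l

/-- check of a token -/
def tokOK (r s : ℕ) (t : FTok) : Bool :=
  (decide (t.1 = 6 ∨ t.1 = 7) && !t.2.isEmpty && gatesOK r s t.2) ||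
    (decide (t.1 = 8 ∨ t.1 = 9 ∨ t.1 = 10) && t.2.isEmpty)

/-- height of the stack; `none` = underflow -/
def hStep (h : Option ℕ) (t : FTok) : Option ℕ :=
  match h with
  | none => none
  | some n => if t.1 ≤ 7 then some (n + 1)
      else if t.1 = 10 then (if 1 ≤ n then some n else none)
      else (if 2 ≤ n then some (n - 1) else none)

/-- all checks on the numbers -/
def ValidNats (ts : List ℕ) : Prop :=
  2 ≤ ts.length ∧ (toks (ts.drop 2)).reverse.flatMap tokNats = ts.drop 2 ∧
    (toks (ts.drop 2)).all (tokOK (ts.getD 0 0) (ts.getD 1 0)) = true ∧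
    (toks (ts.drop 2)).foldl hStep (some 0) = some 1

/-- all checks -/
def Valid (w : List Bool) : Prop := encTok (decTok w) = w ∧ ValidNats (decTok w)

/-! ### constraints -/

/-- auxiliary variable -/
def Av (k : ℕ) : ℕ ⊕ ℕ := Sum.inr (2 * k + 1)

/-- monomial with coefficient `1` -/
def pm (l : List (ℕ ⊕ ℕ)) : Mono := (false, 1, l)

/-- monomial with coefficient `-1` -/
def nm (l : List (ℕ ⊕ ℕ)) : Mono := (true, 1, l)

/-- constraint of the gate `g` with base `v`, number `j` -/
def gateCon (ts : List ℕ) (v j : ℕ) (g : Gt) : SPoly :=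
  if g.1 = 0 then [pm [Av (v + j)], (decide (g.2.1 = 0), g.2.2, [])]
  else if g.1 = 1 then [pm [Av (v + j)], nm [Sum.inl (ts.idxOf g.2.1)]]
  else if g.1 = 2 then [pm [Av (v + j)], nm [Sum.inr (2 * ts.idxOf g.2.1)]]
  else if g.1 = 3 then [pm [Av (v + j)], nm [Av (v + g.2.1)], nm [Av (v + g.2.2)]]
  else if g.1 = 4 then [pm [Av (v + j)], nm [Av (v + g.2.1)], pm [Av (v + g.2.2)]]
  else [pm [Av (v + j)], nm [Av (v + g.2.1), Av (v + g.2.2)]]

/-- constraints of a reversed list of gates -/
def gatesCon (ts : List ℕ) (v : ℕ) : List Gt → List SPoly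
  | [] => []
  | g :: l => gateCon ts v l.length g :: gatesCon ts v l

/-- constraints of a token with first free variable `v`, where `a`, `b` are the truth variables
of the arguments. -/
def tokCon (ts : List ℕ) (v a b : ℕ) (t : FTok) : List SPoly :=
  if t.1 = 6 then
    [pm [Av v, Av (v + 3 + t.2.length)]] ::
    [pm [Av (v + 3 + t.2.length), Av (v + 1)], nm [], pm [Av v]] ::
    gatesCon ts (v + 4) t.2
  else if t.1 = 7 then
    [pm [Av (v + 3 + t.2.length)], nm [Av (v + 1), Av (v + 1)], pm [Av (v + 2), Av (v + 2)]] ::
    [pm [Av (v + 1)], nm [Av (v + 1), Av v]] ::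
    [pm [Av (v + 2), Av v]] ::
    [pm [Av (v + 1), Av (v + 3)], nm [Av v]] ::
    gatesCon ts (v + 4) t.2
  else if t.1 = 8 then [[pm [Av v], nm [Av a, Av b]]]
  else if t.1 = 9 then [[pm [Av v], nm [Av a], nm [Av b], pm [Av a, Av b]]]
  else [[pm [Av v], nm [], pm [Av a]]]

/-- the next free variable -/
def nextVar (v : ℕ) (t : FTok) : ℕ := v + 4 + t.2.length

/-- the next stack -/
def nextStack (v : ℕ) (S : List ℕ) (t : FTok) : List ℕ :=
  if t.1 ≤ 7 then v :: S else if t.1 = 10 then v :: S.tail else v :: S.tail.tail

/-- state of the compiler: first free variable, stack of truth variables, constraints -/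
abbrev CSt : Type := ℕ × List ℕ × List SPoly

/-- one step of the compiler -/
def cStep (ts : List ℕ) (s : CSt) (t : FTok) : CSt :=
  (nextVar s.1 t, nextStack s.1 s.2.1 t,
    tokCon ts s.1 (s.2.1.getD 0 0) (s.2.1.getD 1 0) t ++ s.2.2)

/-- all constraints, from the numbers -/
def consNats (ts : List ℕ) : List SPoly :=
  [pm [Av (((toks (ts.drop 2)).foldl (cStep ts) (0, [], [])).2.1.getD 0 0)]] ::
    ((toks (ts.drop 2)).foldl (cStep ts) (0, [], [])).2.2

/-- all constraints, from the bit string -/
def constraints (w : List Bool) : List SPoly := consNats (decTok w)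

end Crest.Agent.R316.Parse
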