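import Crest.Agent.R316.Parse.Defs
import Crest.Agent.Lib.PT.ListFns2
import Crest.Agent.Lib.PT.ArithMore

/-!
# R316 / Parse / EvalMod (task P3): poly-time evaluation of the constraints modulo `q`

* `Mono.evalMod`, `SPoly.evalMod`, `evalMod` : values modulo `q` at the point given by two lists of
  numbers (missing entries are `0`);
* `ptf_monoEvalMod`, `ptf_spolyEvalMod`, `ptf_evalMod` : they are poly-time;
* `Mono.evalMod_spec`, `SPoly.evalMod_spec`, `evalMod_spec` : correctness in `ZMod q`, and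
  `..._lt`.
-/

set_option autoImplicit false

namespace Crest.Agent.R316.Parse

open Crest.Agent.Lib.PT

/-! ### definitions -/

/-- value of a variable -/
def varVal (xs ys : List ℕ) (v : ℕ ⊕ ℕ) : ℕ :=
  match v with
  | Sum.inl i => xs.getD i 0
  | Sum.inr j => ys.getD j 0

/-- value of a monomial modulo `q` (`0` if `q = 0`) -/
def Mono.evalMod (q : ℕ) (xs ys : List ℕ) (m : Mono) : ℕ :=
  if q = 0 then 0 else
    ((if m.1 = true then q - m.2.1 % q else m.2.1) * (m.2.2.map (varVal xs ys)).prod) % q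

/-- value of a sparse polynomial modulo `q` (`0` if `q = 0`) -/
def SPoly.evalMod (q : ℕ) (xs ys : List ℕ) (p : SPoly) : ℕ :=
  if q = 0 then 0 else (p.map (Mono.evalMod q xs ys)).sum % q

/-- value of the sum of squares of the constraints modulo `q` (`0` if `q = 0`) -/
def evalMod (cs : List SPoly) (q : ℕ) (xs ys : List ℕ) : ℕ :=
  if q = 0 then 0 else (cs.map fun c => SPoly.evalMod q xs ys c ^ 2).sum % q

/-! ### correctness -/

theorem Mono.evalMod_lt {q : ℕ} (hq : 0 < q) (xs ys : List ℕ) (m : Mono) :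
    Mono.evalMod q xs ys m < q := by
  rw [Mono.evalMod, if_neg hq.ne']
  exact Nat.mod_lt _ hq

theorem SPoly.evalMod_lt {q : ℕ} (hq : 0 < q) (xs ys : List ℕ) (p : SPoly) :
    SPoly.evalMod q xs ys p < q := by
  rw [SPoly.evalMod, if_neg hq.ne']
  exact Nat.mod_lt _ hq

theorem evalMod_lt {q : ℕ} (hq : 0 < q) (cs : List SPoly) (xs ys : List ℕ) :
    evalMod cs q xs ys < q := by
  rw [evalMod, if_neg hq.ne']
  exact Nat.mod_lt _ hq

theorem cast_varVal {R : Type*} [CommRing R] (xs ys : List ℕ) (v : ℕ ⊕ ℕ) :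
    ((varVal xs ys v : ℕ) : R) =
      Sum.elim (fun i => ((xs.getD i 0 : ℕ) : R)) (fun j => ((ys.getD j 0 : ℕ) : R)) v := by
  cases v <;> rfl

theorem Mono.evalMod_spec {q : ℕ} (hq : 0 < q) (xs ys : List ℕ) (m : Mono) :
    ((Mono.evalMod q xs ys m : ℕ) : ZMod q) =
      Mono.eval (fun i => ((xs.getD i 0 : ℕ) : ZMod q)) (fun j => ((ys.getD j 0 : ℕ) : ZMod q)) m := by
  have h1 : (((if m.1 = true then q - m.2.1 % q else m.2.1 : ℕ)) : ZMod q) = ((m.coef : ℤ) : ZMod q) := by
    unfold Mono.coef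
    split_ifs with h
    · rw [Nat.cast_sub (Nat.mod_lt _ hq).le]
      simp
    · simp
  have h2 : (((m.2.2.map (varVal xs ys)).prod : ℕ) : ZMod q) =
      (m.2.2.map (Sum.elim (fun i => ((xs.getD i 0 : ℕ) : ZMod q))
        (fun j => ((ys.getD j 0 : ℕ) : ZMod q)))).prod := by
    rw [Nat.cast_list_prod, List.map_map]
    congr 1
    exact List.map_congr_left fun v _ => cast_varVal xs ys v
  rw [Mono.evalMod, if_neg hq.ne', ZMod.natCast_mod, Nat.cast_mul, h1, h2, Mono.eval]

theorem SPoly.evalMod_spec {q : ℕ} (hq : 0 < q) (xs ys : List ℕ) (p : SPoly) :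
    ((SPoly.evalMod q xs ys p : ℕ) : ZMod q) =
      SPoly.eval (fun i => ((xs.getD i 0 : ℕ) : ZMod q)) (fun j => ((ys.getD j 0 : ℕ) : ZMod q)) p := by
  rw [SPoly.evalMod, if_neg hq.ne', ZMod.natCast_mod, Nat.cast_list_sum, List.map_map, SPoly.eval]
  congr 1
  exact List.map_congr_left fun m _ => Mono.evalMod_spec hq xs ys m

theorem evalMod_spec {q : ℕ} (hq : 0 < q) (cs : List SPoly) (xs ys : List ℕ) :
    ((evalMod cs q xs ys : ℕ) : ZMod q) =
      sumSq (fun i => ((xs.getD i 0 : ℕ) : ZMod q)) (fun j => ((ys.getD j 0 : ℕ) : ZMod q)) cs := by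
  rw [evalMod, if_neg hq.ne', ZMod.natCast_mod, Nat.cast_list_sum, List.map_map, sumSq]
  congr 1
  refine List.map_congr_left fun c _ => ?_
  rw [Function.comp_apply, Nat.cast_pow, SPoly.evalMod_spec hq]

/-! ### poly-time -/

section ptf

variable {α : Type} [PTCode α]

/-- entry of a list at a binary index -/
theorem ptf_getD_bin {f : α → ℕ} {l : α → List ℕ} (hf : PTF f) (hl : PTF l) :
    PTF (fun a => (l a).getD (f a) 0) := by
  have h : PTF (fun a => (l a).getD (min (f a) (l a).length) 0) :=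
    PTF.getD (PTF.natMinUn hf (PTU.length hl)) hl (PTF.const 0)
  refine h.of_eq fun a => ?_
  rcases le_total (f a) (l a).length with h1 | h1
  · rw [min_eq_left h1]
  · rw [min_eq_right h1, List.getD_eq_default _ _ le_rfl, List.getD_eq_default _ _ h1]

@[fun_prop]
theorem ptf_varVal {xs ys : α → List ℕ} {v : α → ℕ ⊕ ℕ} (hx : PTF xs) (hy : PTF ys) (hv : PTF v) :
    PTF (fun a => varVal (xs a) (ys a) (v a)) := by
  refine (PTF.sumCasesOn (s := v) (f := fun a i => (xs a).getD i 0) (g := fun a j => (ys a).getD j 0)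
    hv ?_ ?_).of_eq fun a => by cases v a <;> rfl
  · exact ptf_getD_bin (by fun_prop) (by fun_prop)
  · exact ptf_getD_bin (by fun_prop) (by fun_prop)

@[fun_prop]
theorem ptf_monoEvalMod {q : α → ℕ} {xs ys : α → List ℕ} {m : α → Mono} (hq : PTF q) (hx : PTF xs)
    (hy : PTF ys) (hm : PTF m) : PTF (fun a => Mono.evalMod (q a) (xs a) (ys a) (m a)) := by
  have h1 : PTF (fun a => ((m a).2.2.map (varVal (xs a) (ys a))).prod) := by
    refine PTF.natListProd (PTF.map (f := fun a v => varVal (xs a) (ys a) v) ?_ ?_)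
    · fun_prop
    · pt_prop
  unfold Mono.evalMod
  refine PTF.ite (PTPred.natEq hq (PTF.const 0)) (PTF.const 0) (PTF.natMod (PTF.natMul ?_ h1) hq)
  refine PTF.ite (PTF.toPTPred (f := fun a => (m a).1) ?_) ?_ ?_
  · fun_prop
  · fun_prop
  · fun_prop

@[fun_prop]
theorem ptf_spolyEvalMod {q : α → ℕ} {xs ys : α → List ℕ} {p : α → SPoly} (hq : PTF q) (hx : PTF xs)
    (hy : PTF ys) (hp : PTF p) : PTF (fun a => SPoly.evalMod (q a) (xs a) (ys a) (p a)) := by
  have h1 : PTF (fun a => ((p a).map (Mono.evalMod (q a) (xs a) (ys a))).sum) := by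
    refine PTF.natListSum (PTF.map (f := fun a m => Mono.evalMod (q a) (xs a) (ys a) m) hp ?_)
    exact ptf_monoEvalMod (by fun_prop) (by fun_prop) (by fun_prop) (by fun_prop)
  unfold SPoly.evalMod
  exact PTF.ite (PTPred.natEq hq (PTF.const 0)) (PTF.const 0) (PTF.natMod h1 hq)

@[fun_prop]
theorem ptf_evalMod' {cs : α → List SPoly} {q : α → ℕ} {xs ys : α → List ℕ} (hc : PTF cs)
    (hq : PTF q) (hx : PTF xs) (hy : PTF ys) :
    PTF (fun a => evalMod (cs a) (q a) (xs a) (ys a)) := by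
  have h1 : PTF (fun a => ((cs a).map fun c => SPoly.evalMod (q a) (xs a) (ys a) c ^ 2).sum) := by
    refine PTF.natListSum (PTF.map (f := fun a c => SPoly.evalMod (q a) (xs a) (ys a) c ^ 2) hc ?_)
    refine PTF.natPowConst ?_ 2
    exact ptf_spolyEvalMod (by fun_prop) (by fun_prop) (by fun_prop) (by fun_prop)
  unfold evalMod
  exact PTF.ite (PTPred.natEq hq (PTF.const 0)) (PTF.const 0) (PTF.natMod h1 hq)

theorem ptf_evalMod : PTF (fun p : List SPoly × ℕ × List ℕ × List ℕ =>
    evalMod p.1 p.2.1 p.2.2.1 p.2.2.2) :=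
  ptf_evalMod' (by fun_prop) (by fun_prop) (by fun_prop) (by fun_prop)

end ptf

end Crest.Agent.R316.Parse
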