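import Crest.Agent.R316.Parse.Defs
import Crest.Agent.Lib.PT.ListFns2

/-!
# R316 / Parse / PTFTok : the readers are poly-time (task P1)
-/

set_option autoImplicit false

namespace Crest.Agent.R316.Parse

open Crest.Agent.Lib.PT Crest.RealEA

variable {α : Type} [PTCode α]

/-! ### numbers from digits -/

theorem msbVal_eq (l : List Bool) : msbVal l = Arith.msb l := by
  unfold msbVal Arith.msb
  congr 1
  funext n b
  cases b <;> simp [Nat.bit]

theorem ptf_msbVal {f : α → List Bool} (hf : PTF f) : PTF (fun a => msbVal (f a)) :=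
  (PTF.comp Arith.ptf_msb hf).of_eq (fun a => (msbVal_eq (f a)).symm)

theorem size_msbVal_le (l : List Bool) : (msbVal l).size ≤ l.length := by
  rw [msbVal_eq]; exact Arith.size_msb_le l

/-! ### the bit reader -/

theorem bStep_eq (s : BSt) (b : Bool) : bStep s b =
    if s.1 = none then (some b, s.2.1, s.2.2)
    else if s.1 = some true then (none, b :: s.2.1, s.2.2)
    else (none, [], msbVal s.2.1 :: s.2.2) := by
  obtain ⟨o, d, l⟩ := s
  rcases o with _ | h
  · simp [bStep]
  · cases h <;> simp [bStep]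

theorem ptf_bStep : PTF (fun p : α × BSt × Bool => bStep p.2.1 p.2.2) := by
  have h1 : PTPred (fun p : α × BSt × Bool => p.2.1.1 = none) :=
    PTPred.eq (by fun_prop) (by fun_prop)
  have h2 : PTPred (fun p : α × BSt × Bool => p.2.1.1 = some true) :=
    PTPred.eq (by fun_prop) (by fun_prop)
  have h3 : PTF (fun p : α × BSt × Bool => msbVal p.2.1.2.1) := ptf_msbVal (by fun_prop)
  refine PTF.of_eq (f := fun p : α × BSt × Bool =>
    if p.2.1.1 = none then (some p.2.2, p.2.1.2.1, p.2.1.2.2)
    else if p.2.1.1 = some true then (none, p.2.2 :: p.2.1.2.1, p.2.1.2.2)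
    else (none, [], msbVal p.2.1.2.1 :: p.2.1.2.2)) ?_ (fun p => (bStep_eq _ _).symm)
  fun_prop

theorem sz_bStep (s : BSt) (b : Bool) : sz (bStep s b) ≤ sz s + 6 := by
  obtain ⟨o, d, l⟩ := s
  rcases o with _ | h
  · simp [bStep]
    omega
  · cases h
    · have h1 := size_msbVal_le d
      have h2 := sz_listBool d
      simp only [bStep, Bool.false_eq_true, if_false, sz_prod, sz_none, sz_some, sz_bool, sz_nil,
        sz_cons, sz_nat]
      omega
    · simp [bStep]
      omega

theorem ptf_decTok' {f : α → List Bool} (hf : PTF f) : PTF (fun a => decTok (f a)) := by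
  have h : PTF (fun a => (f a).foldl bStep (none, [], [])) :=
    PTF.foldl_add (f := fun _ s b => bStep s b) (b := fun _ => ((none, [], []) : BSt)) hf ptf_bStep
      (PTF.const _) (G := fun _ => 6) (by fun_prop) (fun _ s b _ => sz_bStep s b)
  unfold decTok
  fun_prop

theorem ptf_decTok : PTF (fun w : Bits => decTok w.val) := ptf_decTok' (by fun_prop)

/-! ### writing numbers -/

theorem ptf_realNatBits {f : α → ℕ} (hf : PTF f) : PTF (fun a => Crest.RealEA.natBits (f a)) := by
  have h1 : PTF (fun a => (f a).bits) := PTF.natBits hf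
  have h2 : PTF (fun a => (f a).bits.flatMap fun d => [true, d]) :=
    PTF.flatMap (f := fun _ d => [true, d]) h1 (by pt_prop)
  unfold Crest.RealEA.natBits
  fun_prop

theorem ptf_encTok' {f : α → List ℕ} (hf : PTF f) : PTF (fun a => encTok (f a)) := by
  unfold encTok
  exact PTF.flatMap (f := fun _ n => Crest.RealEA.natBits n) hf (ptf_realNatBits (by fun_prop))

theorem ptf_encTok : PTF (fun ts : List ℕ => Bits.mk (encTok ts)) := by
  have := ptf_encTok' (α := List ℕ) (f := fun ts => ts) (by fun_prop)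
  fun_prop

/-! ### the token reader -/

theorem addGate_eq (g : Gt) (T : List FTok) : addGate g T =
    match T with
    | [] => []
    | t :: T => (t.1, g :: t.2) :: T := rfl

theorem ptf_addGate {g : α → Gt} {T : α → List FTok} (hg : PTF g) (hT : PTF T) :
    PTF (fun a => addGate (g a) (T a)) := by
  have h3 : PTF (fun p : α × FTok × List FTok => g p.1) := PTF.comp hg PTF.fst
  have h := PTF.listCasesOn (δ := List FTok) (f := fun _ => [])
    (g := fun a t T => (t.1, g a :: t.2) :: T) hT (PTF.const _) (by fun_prop)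
  exact h.of_eq (fun a => by cases T a <;> rfl)

theorem ptf_tStep : PTF (fun p : α × TSt × ℕ => tStep p.2.1 p.2.2) := by
  have e0 : PTPred (fun p : α × TSt × ℕ => p.2.1.1 = 0) := PTPred.eq (by fun_prop) (by fun_prop)
  have e1 : PTPred (fun p : α × TSt × ℕ => p.2.1.1 = 1) := PTPred.eq (by fun_prop) (by fun_prop)
  have e2 : PTPred (fun p : α × TSt × ℕ => p.2.1.1 = 2) := PTPred.eq (by fun_prop) (by fun_prop)
  have l5 : PTPred (fun p : α × TSt × ℕ => p.2.2 ≤ 5) :=
    PTPred.natLe (by fun_prop) (by fun_prop)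
  have l7 : PTPred (fun p : α × TSt × ℕ => p.2.2 ≤ 7) :=
    PTPred.natLe (by fun_prop) (by fun_prop)
  have g1 : PTPred (fun p : α × TSt × ℕ => p.2.1.2.1 = 1) :=
    PTPred.eq (by fun_prop) (by fun_prop)
  have g2 : PTPred (fun p : α × TSt × ℕ => p.2.1.2.1 = 2) :=
    PTPred.eq (by fun_prop) (by fun_prop)
  have a1 : PTF (fun p : α × TSt × ℕ => addGate (p.2.1.2.1, p.2.2, 0) p.2.1.2.2.2) :=
    ptf_addGate (by fun_prop) (by fun_prop)
  have a2 : PTF (fun p : α × TSt × ℕ => addGate (p.2.1.2.1, p.2.1.2.2.1, p.2.2) p.2.1.2.2.2) :=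
    ptf_addGate (by fun_prop) (by fun_prop)
  unfold tStep
  fun_prop

theorem sz_addGate (g : Gt) (T : List FTok) : sz (addGate g T) ≤ sz T + 4 * sz g + 2 := by
  cases T with
  | nil => simp [addGate]
  | cons t T =>
    simp only [addGate, sz_cons, sz_prod]
    omega

theorem sz_zero : sz (0 : ℕ) = 0 := by rw [sz_nat]; rfl
theorem sz_one : sz (1 : ℕ) = 1 := by rw [sz_nat]; simp
theorem sz_two : sz (2 : ℕ) = 2 := by rw [sz_nat]; decide
theorem sz_three : sz (3 : ℕ) = 2 := by rw [sz_nat]; decide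

theorem sz_mono {m n : ℕ} (h : m ≤ n) : sz m ≤ sz n := by
  rw [sz_nat, sz_nat]; exact Nat.size_le_size h

/-- invariant of the token reader -/
def TInv (M N : ℕ) (s : TSt) : Prop :=
  sz s.1 ≤ 2 ∧ sz s.2.1 ≤ M ∧ sz s.2.2.1 ≤ M ∧ sz s.2.2.2 ≤ N

theorem tInv_tStep {M N : ℕ} {s : TSt} {t : ℕ} (h : TInv M N s) (ht : sz t ≤ M) :
    TInv M (N + (24 * M + 50)) (tStep s t) := by
  obtain ⟨ph, a, b, L⟩ := s
  obtain ⟨h1, h2, h3, h4⟩ := h
  simp only at h1 h2 h3 h4
  have z0 := sz_zero
  have z2 := sz_two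
  have z1 := sz_one
  have z3 := sz_three
  unfold tStep
  simp only
  split_ifs with c1 c2 c3 c4 c5 c6
  · refine ⟨?_, ?_, ?_, ?_⟩ <;> simp only [] <;> omega
  · refine ⟨?_, ?_, ?_, ?_⟩ <;> simp only [sz_cons, sz_prod, sz_nil] <;> omega
  · refine ⟨?_, ?_, ?_, ?_⟩ <;> simp only [sz_cons, sz_prod, sz_nil] <;> omega
  · refine ⟨?_, ?_, ?_, ?_⟩ <;> simp only [] <;> omega
  · have hg := sz_addGate (a, t, 0) L
    simp only [sz_prod] at hg
    refine ⟨?_, ?_, ?_, ?_⟩ <;> simp only [] <;> omega
  · refine ⟨?_, ?_, ?_, ?_⟩ <;> simp only [] <;> omega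
  · have hg := sz_addGate (a, b, t) L
    simp only [sz_prod] at hg
    refine ⟨?_, ?_, ?_, ?_⟩ <;> simp only [] <;> omega

theorem tInv_foldl {M : ℕ} (l : List ℕ) (hl : ∀ t ∈ l, sz t ≤ M) {N : ℕ} {s : TSt}
    (h : TInv M N s) : TInv M (N + l.length * (24 * M + 50)) (l.foldl tStep s) := by
  induction l generalizing N s with
  | nil => simpa using h
  | cons t l ih =>
    rw [List.foldl_cons]
    have h1 := tInv_tStep h (hl t (by simp))
    have h2 := ih (fun t' ht' => hl t' (by simp [ht'])) h1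
    have e : N + (t :: l).length * (24 * M + 50) =
        N + (24 * M + 50) + l.length * (24 * M + 50) := by
      simp only [List.length_cons]; ring
    rw [e]
    exact h2

theorem sz_of_tInv {M N : ℕ} {s : TSt} (h : TInv M N s) : sz s ≤ 4 * M + N + 10 := by
  obtain ⟨ph, a, b, L⟩ := s
  obtain ⟨h1, h2, h3, h4⟩ := h
  simp only [sz_prod] at *
  omega

theorem ptf_tokFold {f : α → List ℕ} (hf : PTF f) :
    PTF (fun a => (f a).foldl tStep (0, 0, 0, [])) := by
  refine PTF.foldl (f := fun _ s t => tStep s t) (b := fun _ => ((0, 0, 0, []) : TSt)) hf ptf_tStep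
    (PTF.const _) (B := fun a => 4 * sz (f a) + sz (f a) * (24 * sz (f a) + 50) + 10) ?_ ?_
  · have := hf.sz
    fun_prop
  · intro a i _
    have h0 : TInv (sz (f a)) 0 ((0, 0, 0, []) : TSt) := by
      refine ⟨?_, ?_, ?_, ?_⟩ <;> simp [sz_zero]
    have h1 := tInv_foldl ((f a).take i) (fun t ht => sz_mem_le (List.mem_of_mem_take ht)) h0
    have h2 := sz_of_tInv h1
    have h3 : ((f a).take i).length ≤ sz (f a) :=
      (List.length_take_le _ _).trans (by
        have := length_le_sz (f a)
        have h4 := List.length_take_le i (f a)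
        omega)
    have h5 := Nat.mul_le_mul_right (24 * sz (f a) + 50) h3
    change sz (List.foldl tStep (0, 0, 0, []) (List.take i (f a))) ≤ _
    omega

theorem ptf_toks {f : α → List ℕ} (hf : PTF f) : PTF (fun a => toks (f a)) := by
  have := ptf_tokFold hf
  unfold toks
  fun_prop

/-! ### writing tokens -/

theorem ptf_gtNats {f : α → Gt} (hf : PTF f) : PTF (fun a => gtNats (f a)) := by
  have e1 : PTPred (fun a => (f a).1 = 1) := PTPred.eq (by fun_prop) (by fun_prop)
  have e2 : PTPred (fun a => (f a).1 = 2) := PTPred.eq (by fun_prop) (by fun_prop)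
  unfold gtNats
  fun_prop

theorem ptf_length {β : Type} [PTCode β] {f : α → List β} (hf : PTF f) :
    PTF (fun a => (f a).length) := PTU.toPTF (PTU.length hf)

theorem ptf_tokNats {f : α → FTok} (hf : PTF f) : PTF (fun a => tokNats (f a)) := by
  have e1 : PTPred (fun a => (f a).1 ≤ 7) := PTPred.natLe (by fun_prop) (by fun_prop)
  have e2 : PTF (fun a => (f a).2.length) := ptf_length (by fun_prop)
  have e3 : PTF (fun a => (f a).2.reverse.flatMap gtNats) :=
    PTF.flatMap (f := fun _ g => gtNats g) (by fun_prop) (ptf_gtNats (by fun_prop))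
  unfold tokNats
  fun_prop

/-! ### checks -/

theorem ptpred_gateOK {r s t : α → ℕ} {g : α → Gt} (hr : PTF r) (hs : PTF s) (ht : PTF t)
    (hg : PTF g) : PTPred (fun a => gateOK (r a) (s a) (t a) (g a)) := by
  have e0 : PTPred (fun a => (g a).1 = 0) := PTPred.eq (by fun_prop) (by fun_prop)
  have e1 : PTPred (fun a => (g a).1 = 1) := PTPred.eq (by fun_prop) (by fun_prop)
  have e2 : PTPred (fun a => (g a).1 = 2) := PTPred.eq (by fun_prop) (by fun_prop)
  have e3 : PTPred (fun a => 3 ≤ (g a).1) := PTPred.natLe (by fun_prop) (by fun_prop)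
  have e4 : PTPred (fun a => (g a).1 ≤ 5) := PTPred.natLe (by fun_prop) (by fun_prop)
  have f0 : PTPred (fun a => (g a).2.1 = 0) := PTPred.eq (by fun_prop) (by fun_prop)
  have f1 : PTPred (fun a => (g a).2.1 = 1) := PTPred.eq (by fun_prop) (by fun_prop)
  have f2 : PTPred (fun a => 0 < (g a).2.2) := PTPred.natLt (by fun_prop) (by fun_prop)
  have f3 : PTPred (fun a => (g a).2.1 < r a) := PTPred.natLt (by fun_prop) (by fun_prop)
  have f4 : PTPred (fun a => (g a).2.1 < s a) := PTPred.natLt (by fun_prop) (by fun_prop)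
  have f5 : PTPred (fun a => (g a).2.1 < t a) := PTPred.natLt (by fun_prop) (by fun_prop)
  have f6 : PTPred (fun a => (g a).2.2 < t a) := PTPred.natLt (by fun_prop) (by fun_prop)
  unfold gateOK
  fun_prop

/-- `gatesOK` as a right fold -/
def gOKStep (r s : ℕ) (g : Gt) (q : ℕ × Bool) : ℕ × Bool :=
  (q.1 + 1, decide (gateOK r s q.1 g) && q.2)

theorem gatesOK_foldr (r s : ℕ) (l : List Gt) :
    l.foldr (gOKStep r s) (0, true) = (l.length, gatesOK r s l) := by
  induction l with
  | nil => rfl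
  | cons g l ih => rw [List.foldr_cons, ih]; rfl

theorem sz_succ_le (n : ℕ) : sz (n + 1) ≤ sz n + 1 := by
  rw [sz_nat, sz_nat]
  have h := Arith.size_add_le n 1
  rcases Nat.eq_zero_or_pos n with rfl | hn
  · simp
  · rw [Nat.size_le]
    have : n < 2 ^ n.size := Nat.lt_size_self n
    rw [pow_succ]
    omega

theorem ptf_gatesOK {r s : α → ℕ} {l : α → List Gt} (hr : PTF r) (hs : PTF s) (hl : PTF l) :
    PTF (fun a => gatesOK (r a) (s a) (l a)) := by
  have hok : PTPred (fun p : α × Gt × ℕ × Bool => gateOK (r p.1) (s p.1) p.2.2.1 p.2.1) :=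
    ptpred_gateOK (PTF.comp hr PTF.fst) (PTF.comp hs PTF.fst) (by fun_prop) (by fun_prop)
  have hstep : PTF (fun p : α × Gt × ℕ × Bool => gOKStep (r p.1) (s p.1) p.2.1 p.2.2) := by
    unfold gOKStep
    fun_prop
  have h : PTF (fun a => (l a).foldr (gOKStep (r a) (s a)) (0, true)) :=
    PTF.foldr_add (f := fun a g q => gOKStep (r a) (s a) g q) (b := fun _ => ((0, true) : ℕ × Bool))
      hl hstep (PTF.const _) (G := fun _ => 2) (by fun_prop) (fun a q g _ => by
        have := sz_succ_le q.1
        simp only [gOKStep, sz_prod, sz_bool]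
        omega)
  refine PTF.of_eq (PTF.comp (g := fun q : ℕ × Bool => q.2) PTF.snd h) (fun a => ?_)
  rw [gatesOK_foldr]

theorem ptf_tokOK {r s : α → ℕ} {t : α → FTok} (hr : PTF r) (hs : PTF s) (ht : PTF t) :
    PTF (fun a => tokOK (r a) (s a) (t a)) := by
  have e6 : PTPred (fun a => (t a).1 = 6) := PTPred.eq (by fun_prop) (by fun_prop)
  have e7 : PTPred (fun a => (t a).1 = 7) := PTPred.eq (by fun_prop) (by fun_prop)
  have e8 : PTPred (fun a => (t a).1 = 8) := PTPred.eq (by fun_prop) (by fun_prop)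
  have e9 : PTPred (fun a => (t a).1 = 9) := PTPred.eq (by fun_prop) (by fun_prop)
  have e10 : PTPred (fun a => (t a).1 = 10) := PTPred.eq (by fun_prop) (by fun_prop)
  have hg : PTF (fun a => gatesOK (r a) (s a) (t a).2) := ptf_gatesOK hr hs (by fun_prop)
  unfold tokOK
  fun_prop

theorem hStep_eq (h : Option ℕ) (t : FTok) : hStep h t =
    match h with
    | none => none
    | some n => if t.1 ≤ 7 then some (n + 1)
      else if t.1 = 10 then (if 1 ≤ n then some n else none)
      else (if 2 ≤ n then some (n - 1) else none) := rfl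

theorem ptf_hStep : PTF (fun p : α × Option ℕ × FTok => hStep p.2.1 p.2.2) := by
  have e1 : PTPred (fun p : (α × Option ℕ × FTok) × ℕ => p.1.2.2.1 ≤ 7) :=
    PTPred.natLe (by fun_prop) (by fun_prop)
  have e2 : PTPred (fun p : (α × Option ℕ × FTok) × ℕ => p.1.2.2.1 = 10) :=
    PTPred.eq (by fun_prop) (by fun_prop)
  have e3 : PTPred (fun p : (α × Option ℕ × FTok) × ℕ => 1 ≤ p.2) :=
    PTPred.natLe (by fun_prop) (by fun_prop)
  have e4 : PTPred (fun p : (α × Option ℕ × FTok) × ℕ => 2 ≤ p.2) :=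
    PTPred.natLe (by fun_prop) (by fun_prop)
  have h := PTF.optionCasesOn (α := α × Option ℕ × FTok) (β := ℕ) (δ := Option ℕ)
    (s := fun p => p.2.1) (f := fun _ => none)
    (g := fun p n => if p.2.2.1 ≤ 7 then some (n + 1)
      else if p.2.2.1 = 10 then (if 1 ≤ n then some n else none)
      else (if 2 ≤ n then some (n - 1) else none)) (by fun_prop) (PTF.const _) (by pt_prop)
  exact h.of_eq (fun p => by
    obtain ⟨a, o, t⟩ := p
    cases o <;> rfl)

theorem sz_hStep (h : Option ℕ) (t : FTok) : sz (hStep h t) ≤ sz h + 1 := by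
  rcases h with _ | n
  · simp [hStep]
  · have h1 := sz_succ_le n
    have h2 : sz (n - 1) ≤ sz n := sz_mono (by omega)
    simp only [hStep]
    split_ifs <;> simp only [sz_some, sz_none] <;> omega

theorem ptf_hFold {f : α → List FTok} (hf : PTF f) :
    PTF (fun a => (f a).foldl hStep (some 0)) :=
  PTF.foldl_add (f := fun _ s b => hStep s b) (b := fun _ => (some 0 : Option ℕ)) hf ptf_hStep
    (PTF.const _) (G := fun _ => 1) (by fun_prop) (fun _ s b _ => sz_hStep s b)

theorem ptf_getD_const {β : Type} [PTCode β] {f : α → List β} (hf : PTF f) (n : ℕ) (d : β) :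
    PTF (fun a => (f a).getD n d) := by
  have h := PTF.getD (n := fun _ : α => n) (l := f) (d := fun _ => d) (PTU.const n) hf (PTF.const d)
  exact h

theorem ptf_drop_const {β : Type} [PTCode β] {f : α → List β} (hf : PTF f) (n : ℕ) :
    PTF (fun a => (f a).drop n) := PTF.drop (n := fun _ => n) (PTU.const n) hf

theorem ptpred_validNats {f : α → List ℕ} (hf : PTF f) : PTPred (fun a => ValidNats (f a)) := by
  have hd : PTF (fun a => (f a).drop 2) := ptf_drop_const hf 2
  have ht : PTF (fun a => toks ((f a).drop 2)) := ptf_toks hd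
  have h1 : PTPred (fun a => 2 ≤ (f a).length) := PTU.le (PTU.const 2) (PTU.length hf)
  have h2 : PTF (fun a => (toks ((f a).drop 2)).reverse.flatMap tokNats) :=
    PTF.flatMap (f := fun _ t => tokNats t) (by fun_prop) (ptf_tokNats (by fun_prop))
  have h2' : PTPred (fun a => (toks ((f a).drop 2)).reverse.flatMap tokNats = (f a).drop 2) :=
    PTPred.eq h2 hd
  have g0 : PTF (fun a => (f a).getD 0 0) := ptf_getD_const hf 0 0
  have g1 : PTF (fun a => (f a).getD 1 0) := ptf_getD_const hf 1 0
  have h3 : PTF (fun a => (toks ((f a).drop 2)).all (tokOK ((f a).getD 0 0) ((f a).getD 1 0))) :=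
    PTF.all (p := fun a t => tokOK ((f a).getD 0 0) ((f a).getD 1 0) t) ht
      (ptf_tokOK (PTF.comp g0 PTF.fst) (PTF.comp g1 PTF.fst) PTF.snd)
  have h4 : PTPred (fun a => (toks ((f a).drop 2)).foldl hStep (some 0) = some 1) :=
    PTPred.eq (ptf_hFold ht) (by fun_prop)
  exact h1.and (h2'.and (h3.toPTPred.and h4))

theorem ptpred_valid' {f : α → List Bool} (hf : PTF f) : PTPred (fun a => Valid (f a)) := by
  have h1 : PTF (fun a => decTok (f a)) := ptf_decTok' hf
  have h2 : PTF (fun a => encTok (decTok (f a))) := ptf_encTok' h1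
  exact (PTPred.eq h2 hf).and (ptpred_validNats h1)

theorem ptpred_valid : PTPred (fun w : Bits => Valid w.val) := ptpred_valid' (by fun_prop)

end Crest.Agent.R316.Parse
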