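import Crest.Agent.Lib.PT.ListFns2
import Crest.Agent.R316.Parse.Defs
import Crest.Agent.R316.Parse.PTFTok

/-!
# R316 / Parse / PTFCon : the constraint compiler is poly-time; size of the constraints
-/

set_option autoImplicit false
set_option linter.dupNamespace false

namespace Crest.Agent.R316.Parse

open Crest.Agent.Lib.PT

section ptf

variable {α β γ : Type} [PTCode α] [PTCode β] [PTCode γ]

/-! ### monomials -/

@[fun_prop]
theorem ptf_Av {k : α → ℕ} (hk : PTF k) : PTF (fun a => Av (k a)) := by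
  unfold Av
  fun_prop

@[fun_prop]
theorem ptf_pm {l : α → List (ℕ ⊕ ℕ)} (hl : PTF l) : PTF (fun a => pm (l a)) := by
  unfold pm
  fun_prop

@[fun_prop]
theorem ptf_nm {l : α → List (ℕ ⊕ ℕ)} (hl : PTF l) : PTF (fun a => nm (l a)) := by
  unfold nm
  fun_prop

/-! ### index of -/

theorem idxOf_eq_takeWhile (a : ℕ) (l : List ℕ) :
    l.idxOf a = (l.takeWhile (fun b => !(b == a))).length := by
  induction l with
  | nil => simp
  | cons b l ih =>
    rw [List.idxOf_cons, List.takeWhile_cons]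
    by_cases h : b = a
    · subst h; simp
    · have : (b == a) = false := by simpa using h
      simp [this, ih]

@[fun_prop]
theorem ptu_idxOf {l : α → List ℕ} {n : α → ℕ} (hl : PTF l) (hn : PTF n) :
    PTU (fun a => (l a).idxOf (n a)) := by
  have h1 : PTF₂ (fun (a : α) (b : ℕ) => !(b == n a)) := by
    have h2 : PTF (fun p : α × ℕ => decide (p.2 = n p.1)) :=
      PTF.beq PTF.snd (PTF.comp hn PTF.fst)
    exact (PTF.not h2).of_eq (fun p => by
      by_cases h : p.2 = n p.1 <;> simp [h])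
  exact (PTU.length (PTF.takeWhile hl h1)).of_eq (fun a => (idxOf_eq_takeWhile _ _).symm)

@[fun_prop]
theorem ptf_idxOf {l : α → List ℕ} {n : α → ℕ} (hl : PTF l) (hn : PTF n) :
    PTF (fun a => (l a).idxOf (n a)) := PTU.toPTF (ptu_idxOf hl hn)

/-! ### gates -/

theorem ptf_gateCon : PTF (fun p : List ℕ × ℕ × ℕ × Gt => gateCon p.1 p.2.1 p.2.2.1 p.2.2.2) := by
  unfold gateCon
  have h0 : ∀ k : ℕ, PTPred (fun p : List ℕ × ℕ × ℕ × Gt => p.2.2.2.1 = k) := fun k =>
    PTPred.natEq (by fun_prop) (by fun_prop)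
  have h0' : PTF (fun p : List ℕ × ℕ × ℕ × Gt => decide (p.2.2.2.2.1 = 0)) :=
    PTF.beq (by fun_prop) (by fun_prop)
  refine PTF.ite (h0 0) ?_ (PTF.ite (h0 1) ?_ (PTF.ite (h0 2) ?_ (PTF.ite (h0 3) ?_
    (PTF.ite (h0 4) ?_ ?_))))
  · fun_prop
  · fun_prop
  · fun_prop
  · fun_prop
  · fun_prop
  · fun_prop

theorem gatesCon_eq (ts : List ℕ) (v : ℕ) (l : List Gt) :
    gatesCon ts v l = List.zipWith (fun g j => gateCon ts v j g) l (List.range l.length).reverse := by
  induction l with
  | nil => rfl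
  | cons g l ih =>
    rw [gatesCon, ih, List.length_cons, List.range_succ, List.reverse_append]
    rfl

theorem ptf_gatesCon' {c : γ → List ℕ} {v : γ → ℕ} {l : γ → List Gt} (hc : PTF c) (hv : PTF v)
    (hl : PTF l) : PTF (fun x => gatesCon (c x) (v x) (l x)) := by
  have h1 : PTF (fun x => (List.range (l x).length).reverse) :=
    PTF.reverse (PTF.range (PTU.length hl))
  have h2 : PTF (fun p : γ × Gt × ℕ => gateCon (c p.1) (v p.1) p.2.2 p.2.1) :=
    PTF.comp (f := fun p : γ × Gt × ℕ => (c p.1, v p.1, p.2.2, p.2.1)) ptf_gateCon (by fun_prop)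
  exact (PTF.zipWith hl h1 (f := fun x g j => gateCon (c x) (v x) j g) h2).of_eq
    (fun x => (gatesCon_eq _ _ _).symm)

/-! ### tokens -/

theorem ptf_tokCon : PTF (fun p : List ℕ × ℕ × ℕ × ℕ × FTok =>
    tokCon p.1 p.2.1 p.2.2.1 p.2.2.2.1 p.2.2.2.2) := by
  have h0 : ∀ k : ℕ, PTPred (fun p : List ℕ × ℕ × ℕ × ℕ × FTok => p.2.2.2.2.1 = k) := fun k =>
    PTPred.natEq (by fun_prop) (by fun_prop)
  have h1 : PTF (fun p : List ℕ × ℕ × ℕ × ℕ × FTok =>
      gatesCon p.1 (p.2.1 + 4) p.2.2.2.2.2) :=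
    ptf_gatesCon' (by fun_prop) (by fun_prop) (by fun_prop)
  have h2 : PTF (fun p : List ℕ × ℕ × ℕ × ℕ × FTok => p.2.2.2.2.2.length) :=
    PTU.toPTF (PTU.length (by fun_prop))
  unfold tokCon
  refine PTF.ite (h0 6) ?_ (PTF.ite (h0 7) ?_ (PTF.ite (h0 8) ?_ (PTF.ite (h0 9) ?_ ?_)))
  · fun_prop
  · fun_prop
  · fun_prop
  · fun_prop
  · fun_prop

theorem ptf_nextVar : PTF (fun p : ℕ × FTok => nextVar p.1 p.2) := by
  have h2 : PTF (fun p : ℕ × FTok => p.2.2.length) :=
    PTU.toPTF (PTU.length (by fun_prop))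
  unfold nextVar
  fun_prop

theorem ptf_nextStack : PTF (fun p : ℕ × List ℕ × FTok => nextStack p.1 p.2.1 p.2.2) := by
  have h1 : PTPred (fun p : ℕ × List ℕ × FTok => p.2.2.1 ≤ 7) :=
    PTPred.natLe (by fun_prop) (by fun_prop)
  have h2 : PTPred (fun p : ℕ × List ℕ × FTok => p.2.2.1 = 10) :=
    PTPred.natEq (by fun_prop) (by fun_prop)
  unfold nextStack
  refine PTF.ite h1 ?_ (PTF.ite h2 ?_ ?_)
  · fun_prop
  · fun_prop
  · fun_prop

theorem ptf_cStep : PTF (fun p : List ℕ × CSt × FTok => cStep p.1 p.2.1 p.2.2) := by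
  unfold cStep
  have h1 : PTF (fun p : List ℕ × CSt × FTok => nextVar p.2.1.1 p.2.2) :=
    PTF.comp (f := fun p : List ℕ × CSt × FTok => (p.2.1.1, p.2.2)) ptf_nextVar (by fun_prop)
  have h2 : PTF (fun p : List ℕ × CSt × FTok => nextStack p.2.1.1 p.2.1.2.1 p.2.2) :=
    PTF.comp (f := fun p : List ℕ × CSt × FTok => (p.2.1.1, p.2.1.2.1, p.2.2)) ptf_nextStack
      (by fun_prop)
  have h3 : PTF (fun p : List ℕ × CSt × FTok => p.2.1.2.1.getD 0 0) :=
    PTF.getD (PTU.const 0) (by fun_prop) (PTF.const 0)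
  have h4 : PTF (fun p : List ℕ × CSt × FTok => p.2.1.2.1.getD 1 0) :=
    PTF.getD (PTU.const 1) (by fun_prop) (PTF.const 0)
  have h5 : PTF (fun p : List ℕ × CSt × FTok =>
      tokCon p.1 p.2.1.1 (p.2.1.2.1.getD 0 0) (p.2.1.2.1.getD 1 0) p.2.2) :=
    PTF.comp (f := fun p : List ℕ × CSt × FTok =>
      (p.1, p.2.1.1, p.2.1.2.1.getD 0 0, p.2.1.2.1.getD 1 0, p.2.2)) ptf_tokCon (by fun_prop)
  have h6 : PTF (fun p : List ℕ × CSt × FTok => p.2.1.2.2) := by fun_prop
  exact PTF.prodMk h1 (PTF.prodMk h2 (PTF.append h5 h6))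

/-! ### the fold -/

/-- number of variables used by the tokens -/
def cnt (T : List FTok) : ℕ := (T.map fun t => 4 + t.2.length).sum

@[simp] theorem cnt_nil : cnt [] = 0 := rfl
@[simp] theorem cnt_cons (t : FTok) (T : List FTok) : cnt (t :: T) = 4 + t.2.length + cnt T := rfl

theorem cnt_append (T T' : List FTok) : cnt (T ++ T') = cnt T + cnt T' := by
  simp [cnt]

theorem cnt_le_sz (T : List FTok) : cnt T ≤ 2 * sz T := by
  induction T with
  | nil => simp
  | cons t T ih =>
    have := length_le_sz t.2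
    simp only [cnt_cons, sz_cons, sz_prod]
    omega

theorem cnt_take_le (T : List FTok) (i : ℕ) : cnt (T.take i) ≤ cnt T := by
  have := cnt_append (T.take i) (T.drop i)
  rw [List.take_append_drop] at this
  omega

theorem nextStack_mem {v : ℕ} {S : List ℕ} {t : FTok} {a : ℕ} (h : a ∈ nextStack v S t) :
    a = v ∨ a ∈ S := by
  unfold nextStack at h
  split_ifs at h
  · simpa using h
  · rcases List.mem_cons.1 h with h | h
    · exact Or.inl h
    · exact Or.inr (List.mem_of_mem_tail h)
  · rcases List.mem_cons.1 h with h | h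
    · exact Or.inl h
    · exact Or.inr (List.mem_of_mem_tail (List.mem_of_mem_tail h))

theorem nextStack_length_le (v : ℕ) (S : List ℕ) (t : FTok) :
    (nextStack v S t).length ≤ S.length + 1 := by
  unfold nextStack
  split_ifs
  · simp
  · simp
  · simp; omega

theorem getD_le {S : List ℕ} {W : ℕ} (h : ∀ a ∈ S, a ≤ W) (i : ℕ) : S.getD i 0 ≤ W := by
  rw [List.getD_eq_getElem?_getD]
  rcases hi : S[i]? with _ | a
  · simp
  · simpa using h a (List.mem_of_getElem? hi)

/-- the fold, sizes -/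
theorem fold_size (ts : List ℕ) (W Q : ℕ) (T : List FTok)
    (hQ : ∀ v ≤ W, ∀ a ≤ W, ∀ b ≤ W, ∀ t ∈ T, sz (tokCon ts v a b t) ≤ Q) :
    ∀ s : CSt, s.1 + cnt T ≤ W → (∀ a ∈ s.2.1, a ≤ W) →
      (T.foldl (cStep ts) s).1 = s.1 + cnt T ∧
      (∀ a ∈ (T.foldl (cStep ts) s).2.1, a ≤ W) ∧
      (T.foldl (cStep ts) s).2.1.length ≤ s.2.1.length + T.length ∧
      sz (T.foldl (cStep ts) s).2.2 ≤ sz s.2.2 + T.length * Q := by
  induction T with
  | nil => intro s h1 h2; simpa using h2
  | cons t T ih =>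
    intro s h1 h2
    rw [cnt_cons] at h1
    rw [List.foldl_cons]
    have hs1 : (cStep ts s t).1 = s.1 + 4 + t.2.length := rfl
    have hs2 : (cStep ts s t).2.1 = nextStack s.1 s.2.1 t := rfl
    have hs3 : (cStep ts s t).2.2 =
      tokCon ts s.1 (s.2.1.getD 0 0) (s.2.1.getD 1 0) t ++ s.2.2 := rfl
    obtain ⟨e1, e2, e3, e4⟩ := ih (fun v hv a ha b hb t ht => hQ v hv a ha b hb t (by simp [ht]))
      (cStep ts s t) (by rw [hs1]; omega) (by
        rw [hs2]
        intro a ha
        rcases nextStack_mem ha with rfl | ha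
        · omega
        · exact h2 a ha)
    refine ⟨?_, e2, ?_, ?_⟩
    · rw [e1, hs1, cnt_cons]; omega
    · have := nextStack_length_le s.1 s.2.1 t
      rw [hs2] at e3
      simp only [List.length_cons]
      omega
    · rw [hs3, sz_append] at e4
      have := hQ s.1 (by omega) _ (getD_le h2 0) _ (getD_le h2 1) t (by simp)
      simp only [List.length_cons]
      have : (T.length + 1) * Q = T.length * Q + Q := by ring
      omega

theorem ptf_fold : PTF (fun p : List ℕ × List FTok =>
    p.2.foldl (cStep p.1) ((0, [], []) : CSt)) := by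
  obtain ⟨q, hq⟩ := PTF.bound ptf_tokCon
  -- size bound of the arguments of `tokCon`
  have hB : PB (fun p : List ℕ × List FTok => 2 * (2 * sz p.2) + 1 +
      (2 * (sz p.2 * (2 * (2 * sz p.2) + 1)) + 1 + sz p.2 *
        q.eval (2 * sz p.1 + 1 + (2 * (2 * sz p.2) + 1 + (2 * (2 * sz p.2) + 1 +
          (2 * (2 * sz p.2) + 1 + sz p.2)))))) := by
    have h1 : PB (fun p : List ℕ × List FTok => sz p.2) := PTF.sz (by fun_prop)
    have h2 : PB (fun p : List ℕ × List FTok => sz p.1) := PTF.sz (by fun_prop)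
    have h3 := PB.eval q (f := fun p : List ℕ × List FTok =>
      2 * sz p.1 + 1 + (2 * (2 * sz p.2) + 1 + (2 * (2 * sz p.2) + 1 +
          (2 * (2 * sz p.2) + 1 + sz p.2)))) (by fun_prop)
    fun_prop
  refine PTF.foldl (f := fun (p : List ℕ × List FTok) (s : CSt) (t : FTok) => cStep p.1 s t)
    (b := fun _ => ((0, [], []) : CSt)) PTF.snd
    (PTF.comp (f := fun p : (List ℕ × List FTok) × CSt × FTok => (p.1.1, p.2.1, p.2.2)) ptf_cStep
      (by fun_prop)) (PTF.const _) hB ?_
  rintro ⟨ts, T⟩ i -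
  change sz ((T.take i).foldl (cStep ts) ((0, [], []) : CSt)) ≤ _
  simp only
  have hW : cnt T ≤ 2 * sz T := cnt_le_sz T
  have hf := fold_size ts (cnt T)
    (q.eval (2 * sz ts + 1 + (2 * (2 * sz T) + 1 + (2 * (2 * sz T) + 1 +
          (2 * (2 * sz T) + 1 + sz T))))) (T.take i) (by
      intro v hv a ha b hb t ht
      have h1 := hq (ts, v, a, b, t)
      refine h1.trans (eval_mono q ?_)
      have hv' : sz v ≤ 2 * sz T := (sz_nat_le v).trans (hv.trans hW)
      have ha' : sz a ≤ 2 * sz T := (sz_nat_le a).trans (ha.trans hW)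
      have hb' : sz b ≤ 2 * sz T := (sz_nat_le b).trans (hb.trans hW)
      have ht' : sz t ≤ sz T := sz_mem_le (List.mem_of_mem_take ht)
      rw [sz_prod, sz_prod, sz_prod, sz_prod]
      dsimp only
      omega) (0, [], []) (by simpa using cnt_take_le T i) (by simp)
  obtain ⟨e1, e2, e3, e4⟩ := hf
  have hlen : (T.take i).length ≤ T.length := by simp
  have hlen' := length_le_sz T
  rw [sz_prod, sz_prod]
  have f1 : sz ((T.take i).foldl (cStep ts) (0, [], [])).1 ≤ 2 * sz T := by
    refine (sz_nat_le _).trans ?_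
    rw [e1]
    have := cnt_take_le T i
    simp only
    omega
  have f2 : sz ((T.take i).foldl (cStep ts) (0, [], [])).2.1 ≤
      sz T * (2 * (2 * sz T) + 1) := by
    refine (sz_list_le (m := 2 * sz T) (fun a ha => ?_)).trans ?_
    · exact (sz_nat_le a).trans ((e2 a ha).trans hW)
    · apply Nat.mul_le_mul_right
      simp only [List.length_nil, Nat.zero_add] at e3
      omega
  have f3 : sz ((T.take i).foldl (cStep ts) (0, [], [])).2.2 ≤ sz T *
      q.eval (2 * sz ts + 1 + (2 * (2 * sz T) + 1 + (2 * (2 * sz T) + 1 +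
          (2 * (2 * sz T) + 1 + sz T)))) := by
    refine e4.trans ?_
    simp only [sz_nil, Nat.zero_add]
    apply Nat.mul_le_mul_right
    omega
  omega

theorem ptf_consNats (htoks : PTF (fun l : List ℕ => toks l)) :
    PTF (fun ts : List ℕ => consNats ts) := by
  have h1 : PTF (fun ts : List ℕ => toks (ts.drop 2)) :=
    PTF.comp htoks (PTF.drop (PTU.const 2) PTF.id)
  have h2 : PTF (fun ts : List ℕ => (toks (ts.drop 2)).foldl (cStep ts) ((0, [], []) : CSt)) :=
    PTF.comp (f := fun ts : List ℕ => (ts, toks (ts.drop 2))) ptf_fold (PTF.prodMk PTF.id h1)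
  have h3 : PTF (fun ts : List ℕ =>
      ((toks (ts.drop 2)).foldl (cStep ts) ((0, [], []) : CSt)).2.1.getD 0 0) :=
    PTF.getD (PTU.const 0) (by fun_prop) (PTF.const 0)
  unfold consNats
  fun_prop

/-- the compiler is poly-time (on raw bit strings) -/
theorem ptf_constraints_of (hdec : PTF (fun w : Bits => decTok w.val))
    (htoks : PTF (fun l : List ℕ => toks l)) :
    PTF (fun w : Bits => constraints w.val) :=
  PTF.comp (g := fun ts : List ℕ => consNats ts) (ptf_consNats htoks) hdec

/-- the compiler is poly-time, on raw bit strings -/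
theorem ptf_constraints : PTF (fun w : Bits => constraints w.val) :=
  ptf_constraints_of ptf_decTok (ptf_toks (by fun_prop))

/-- the compiler is poly-time, on lists of booleans -/
theorem ptf_constraints' {f : α → List Bool} (hf : PTF f) : PTF (fun a => constraints (f a)) :=
  PTF.comp (g := fun ts : List ℕ => consNats ts) (ptf_consNats (ptf_toks (by fun_prop)))
    (ptf_decTok' hf)

end ptf

/-! ## sizes of the constraints -/

/-! ### the numbers -/

theorem msbVal_lt (l : List Bool) : msbVal l < 2 ^ l.length := by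
  have key : ∀ (l : List Bool) (n : ℕ), l.foldl (fun n b => 2 * n + b.toNat) n
      < (n + 1) * 2 ^ l.length := by
    intro l
    induction l with
    | nil => intro n; simp
    | cons b l ih =>
      intro n
      rw [List.foldl_cons]
      refine (ih _).trans_le ?_
      rw [List.length_cons, pow_succ]
      have : 2 * n + b.toNat + 1 ≤ (n + 1) * 2 := by cases b <;> simp <;> omega
      calc (2 * n + b.toNat + 1) * 2 ^ l.length ≤ ((n + 1) * 2) * 2 ^ l.length :=
            Nat.mul_le_mul_right _ this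
        _ = (n + 1) * (2 ^ l.length * 2) := by ring
  simpa [msbVal] using key l 0

/-- invariant of the bit reader after `k` bits -/
def BInv (M k : ℕ) (s : BSt) : Prop :=
  2 * s.2.1.length + 2 * s.2.2.length + (if s.1.isSome then 1 else 0) ≤ k ∧
    ∀ x ∈ s.2.2, x < 2 ^ M

theorem bStep_inv {M k : ℕ} (hk : k ≤ M) {s : BSt} (h : BInv M k s) (b : Bool) :
    BInv M (k + 1) (bStep s b) := by
  obtain ⟨h1, h2⟩ := h
  rcases s with ⟨o, ds, ns⟩
  unfold bStep
  rcases o with _ | c
  · simp only [Option.isSome_none, Bool.false_eq_true, if_false] at h1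
    exact ⟨by simpa using h1, h2⟩
  · simp only [Option.isSome_some, if_true] at h1
    by_cases hc : c = true
    · simp only [hc, if_true]
      refine ⟨?_, h2⟩
      simp only [List.length_cons, Option.isSome_none, Bool.false_eq_true, if_false]
      omega
    · simp only [hc]
      refine ⟨?_, ?_⟩
      · simp only [List.length_cons, List.length_nil, Option.isSome_none, Bool.false_eq_true,
          if_false]
        omega
      · intro x hx
        simp only [Bool.false_eq_true, if_false, List.mem_cons] at hx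
        rcases hx with rfl | hx
        · refine (msbVal_lt _).trans_le (Nat.pow_le_pow_right (by norm_num) ?_)
          omega
        · exact h2 x hx

theorem bFold_inv {M : ℕ} (w : List Bool) : ∀ (k : ℕ) (s : BSt), k + w.length ≤ M → BInv M k s →
    BInv M (k + w.length) (w.foldl bStep s) := by
  induction w with
  | nil => intro k s _ h; simpa using h
  | cons b w ih =>
    intro k s hk h
    rw [List.length_cons] at hk ⊢
    rw [List.foldl_cons]
    have := ih (k + 1) (bStep s b) (by omega) (bStep_inv (by omega) h b)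
    rwa [Nat.add_assoc, Nat.add_comm 1] at this

theorem decTok_inv (w : List Bool) : BInv w.length w.length (w.foldl bStep (none, [], [])) := by
  have := bFold_inv (M := w.length) w 0 (none, [], []) (by simp) ⟨by simp, by simp⟩
  simpa using this

theorem decTok_length (w : List Bool) : 2 * (decTok w).length ≤ w.length := by
  have := (decTok_inv w).1
  unfold decTok
  rw [List.length_reverse]
  omega

theorem decTok_lt {w : List Bool} {x : ℕ} (hx : x ∈ decTok w) : x < 2 ^ w.length := by
  unfold decTok at hx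
  rw [List.mem_reverse] at hx
  exact (decTok_inv w).2 x hx

/-! ### the tokens -/

/-- number of tokens and gates -/
def tl (T : List FTok) : ℕ := (T.map fun t => 1 + t.2.length).sum

@[simp] theorem tl_nil : tl [] = 0 := rfl
@[simp] theorem tl_cons (t : FTok) (T : List FTok) : tl (t :: T) = 1 + t.2.length + tl T := rfl

theorem cnt_le_tl (T : List FTok) : cnt T ≤ 4 * tl T := by
  induction T with
  | nil => simp
  | cons t T ih => simp only [cnt_cons, tl_cons]; omega

theorem tl_addGate (g : Gt) (T : List FTok) : tl (addGate g T) ≤ tl T + 1 := by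
  cases T with
  | nil => simp [addGate]
  | cons t T => simp only [addGate, tl_cons, List.length_cons]; omega

/-- all arguments of gates are small -/
def SmallT (M : ℕ) (T : List FTok) : Prop := ∀ t ∈ T, ∀ g ∈ t.2, g.2.1 < M ∧ g.2.2 < M

theorem smallT_addGate {M : ℕ} {g : Gt} {T : List FTok} (hT : SmallT M T)
    (hg : g.2.1 < M ∧ g.2.2 < M) : SmallT M (addGate g T) := by
  cases T with
  | nil => intro t ht; simp [addGate] at ht
  | cons t0 T =>
    intro t ht g' hg'
    simp only [addGate, List.mem_cons] at ht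
    rcases ht with rfl | ht
    · simp only [List.mem_cons] at hg'
      rcases hg' with rfl | hg'
      · exact hg
      · exact hT t0 (by simp) g' hg'
    · exact hT t (by simp [ht]) g' hg'

theorem tStep_tl (s : TSt) (t : ℕ) : tl (tStep s t).2.2.2 ≤ tl s.2.2.2 + 1 := by
  unfold tStep
  split_ifs
  · simp
  · simp only [tl_cons, List.length_nil]; omega
  · simp only [tl_cons, List.length_nil]; omega
  · simp
  · exact tl_addGate _ _
  · simp
  · exact tl_addGate _ _

theorem smallT_cons_nil {M : ℕ} {T : List FTok} (hT : SmallT M T) (t : ℕ) :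
    SmallT M ((t, []) :: T) := by
  intro t' ht g hg
  rcases List.mem_cons.1 ht with rfl | ht
  · simp at hg
  · exact hT t' ht g hg

theorem tStep_small {M : ℕ} {s : TSt} {t : ℕ} (hM : 0 < M) (ht : t < M) (h1 : s.2.2.1 < M)
    (h2 : SmallT M s.2.2.2) : (tStep s t).2.2.1 < M ∧ SmallT M (tStep s t).2.2.2 := by
  unfold tStep
  split_ifs
  · exact ⟨hM, h2⟩
  · exact ⟨hM, smallT_cons_nil h2 t⟩
  · exact ⟨hM, smallT_cons_nil h2 t⟩
  · exact ⟨hM, h2⟩
  · exact ⟨hM, smallT_addGate h2 ⟨ht, hM⟩⟩
  · exact ⟨ht, h2⟩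
  · exact ⟨hM, smallT_addGate h2 ⟨h1, ht⟩⟩

theorem toks_tl (l : List ℕ) : tl (toks l) ≤ l.length := by
  have key : ∀ (l : List ℕ) (s : TSt), tl (l.foldl tStep s).2.2.2 ≤ tl s.2.2.2 + l.length := by
    intro l
    induction l with
    | nil => intro s; simp
    | cons t l ih =>
      intro s
      rw [List.foldl_cons, List.length_cons]
      have h1 := ih (tStep s t)
      have h2 := tStep_tl s t
      omega
  simpa [toks] using key l (0, 0, 0, [])

theorem toks_small {M : ℕ} (hM : 0 < M) (l : List ℕ) (hl : ∀ t ∈ l, t < M) :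
    SmallT M (toks l) := by
  have key : ∀ (l : List ℕ) (s : TSt), (∀ t ∈ l, t < M) → s.2.2.1 < M → SmallT M s.2.2.2 →
      SmallT M (l.foldl tStep s).2.2.2 := by
    intro l
    induction l with
    | nil => intro s _ _ h; simpa using h
    | cons t l ih =>
      intro s hl h1 h2
      rw [List.foldl_cons]
      obtain ⟨h3, h4⟩ := tStep_small hM (hl t (by simp)) h1 h2
      exact ih _ (fun t ht => hl t (by simp [ht])) h3 h4
  exact key l (0, 0, 0, []) hl hM (by intro t ht; simp at ht)

/-! ### the constraints -/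

/-- index of a variable -/
def vix (z : ℕ ⊕ ℕ) : ℕ := Sum.elim (fun i => i) (fun j => j) z

@[simp] theorem vix_inl (i : ℕ) : vix (Sum.inl i) = i := rfl
@[simp] theorem vix_inr (i : ℕ) : vix (Sum.inr i) = i := rfl
@[simp] theorem vix_Av (k : ℕ) : vix (Av k) = 2 * k + 1 := rfl

/-- a small monomial: at most two variables of index `< N`, coefficient `< M` -/
def GoodM (N M : ℕ) (m : Mono) : Prop := m.2.2.length ≤ 2 ∧ m.2.1 < M ∧ ∀ z ∈ m.2.2, vix z < N

/-- a small constraint -/
def GoodC (N M : ℕ) (c : SPoly) : Prop := c.length ≤ 4 ∧ ∀ m ∈ c, GoodM N M m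

theorem goodM_mk0 {N M : ℕ} (b : Bool) {n : ℕ} (hn : n < M) : GoodM N M (b, n, []) :=
  ⟨by simp, hn, by simp⟩

theorem goodM_mk1 {N M : ℕ} (b : Bool) {n : ℕ} (hn : n < M) {z : ℕ ⊕ ℕ} (hz : vix z < N) :
    GoodM N M (b, n, [z]) :=
  ⟨by simp, hn, by simpa using hz⟩

theorem goodM_mk2 {N M : ℕ} (b : Bool) {n : ℕ} (hn : n < M) {z z' : ℕ ⊕ ℕ} (hz : vix z < N)
    (hz' : vix z' < N) : GoodM N M (b, n, [z, z']) :=
  ⟨by simp, hn, by simpa using ⟨hz, hz'⟩⟩

theorem goodC_1 {N M : ℕ} {m1 : Mono} (h1 : GoodM N M m1) : GoodC N M [m1] :=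
  ⟨by simp, by simpa using h1⟩

theorem goodC_2 {N M : ℕ} {m1 m2 : Mono} (h1 : GoodM N M m1) (h2 : GoodM N M m2) :
    GoodC N M [m1, m2] := ⟨by simp, by simpa using ⟨h1, h2⟩⟩

theorem goodC_3 {N M : ℕ} {m1 m2 m3 : Mono} (h1 : GoodM N M m1) (h2 : GoodM N M m2)
    (h3 : GoodM N M m3) : GoodC N M [m1, m2, m3] := ⟨by simp, by simpa using ⟨h1, h2, h3⟩⟩

theorem goodC_4 {N M : ℕ} {m1 m2 m3 m4 : Mono} (h1 : GoodM N M m1) (h2 : GoodM N M m2)
    (h3 : GoodM N M m3) (h4 : GoodM N M m4) : GoodC N M [m1, m2, m3, m4] :=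
  ⟨by simp, by simpa using ⟨h1, h2, h3, h4⟩⟩

theorem gateCon_good {N M : ℕ} {ts : List ℕ} {v j r s : ℕ} {g : Gt} (hM : 1 < M)
    (hts : 2 * ts.length < N) (hv : 2 * (v + j) + 1 < N) (hg : gateOK r s j g) (hg2 : g.2.2 < M) :
    GoodC N M (gateCon ts v j g) := by
  have hidx : ts.idxOf g.2.1 ≤ ts.length := List.idxOf_le_length
  have hA : vix (Av (v + j)) < N := by rw [vix_Av]; exact hv
  have hB : 3 ≤ g.1 → vix (Av (v + g.2.1)) < N ∧ vix (Av (v + g.2.2)) < N := by
    intro h3
    rcases hg with h | h | h | h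
    · omega
    · omega
    · omega
    · rw [vix_Av, vix_Av]; omega
  unfold gateCon
  split_ifs with h0 h1 h2 h3 h4
  · exact goodC_2 (goodM_mk1 _ hM hA) (goodM_mk0 _ hg2)
  · exact goodC_2 (goodM_mk1 _ hM hA) (goodM_mk1 _ hM (by rw [vix_inl]; omega))
  · exact goodC_2 (goodM_mk1 _ hM hA) (goodM_mk1 _ hM (by rw [vix_inr]; omega))
  · exact goodC_3 (goodM_mk1 _ hM hA) (goodM_mk1 _ hM (hB (by omega)).1)
      (goodM_mk1 _ hM (hB (by omega)).2)
  · exact goodC_3 (goodM_mk1 _ hM hA) (goodM_mk1 _ hM (hB (by omega)).1)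
      (goodM_mk1 _ hM (hB (by omega)).2)
  · exact goodC_2 (goodM_mk1 _ hM hA)
      (goodM_mk2 _ hM (hB (by omega)).1 (hB (by omega)).2)

theorem gatesCon_good {N M : ℕ} {ts : List ℕ} {v r s : ℕ} (hM : 1 < M)
    (hts : 2 * ts.length < N) (l : List Gt) (hv : 2 * (v + l.length) < N + 1)
    (hl : gatesOK r s l = true) (hl2 : ∀ g ∈ l, g.2.2 < M) :
    ∀ c ∈ gatesCon ts v l, GoodC N M c := by
  induction l with
  | nil => intro c hc; simp [gatesCon] at hc
  | cons g l ih =>
    intro c hc
    simp only [gatesOK, Bool.and_eq_true, decide_eq_true_eq] at hl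
    rw [List.length_cons] at hv
    rw [gatesCon, List.mem_cons] at hc
    rcases hc with rfl | hc
    · exact gateCon_good hM hts (by omega) hl.1 (hl2 g (by simp))
    · exact ih (by omega) hl.2 (fun g hg => hl2 g (by simp [hg])) c hc

theorem gatesCon_length (ts : List ℕ) (v : ℕ) (l : List Gt) :
    (gatesCon ts v l).length = l.length := by
  induction l with
  | nil => rfl
  | cons g l ih => simp [gatesCon, ih]

theorem tokCon_length (ts : List ℕ) (v a b : ℕ) (t : FTok) :
    (tokCon ts v a b t).length ≤ 4 + t.2.length := by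
  unfold tokCon
  split_ifs
  · simp only [List.length_cons, gatesCon_length]; omega
  · simp only [List.length_cons, gatesCon_length]; omega
  · simp only [List.length_cons, List.length_nil]; omega
  · simp only [List.length_cons, List.length_nil]; omega
  · simp only [List.length_cons, List.length_nil]; omega

theorem tokCon_good {N M : ℕ} {ts : List ℕ} {v a b r s : ℕ} {t : FTok} (hM : 1 < M)
    (hts : 2 * ts.length < N) (hv : 2 * (v + 4 + t.2.length) < N) (ha : 2 * a + 1 < N)
    (hb : 2 * b + 1 < N) (ht : tokOK r s t = true) (ht2 : ∀ g ∈ t.2, g.2.2 < M) :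
    ∀ c ∈ tokCon ts v a b t, GoodC N M c := by
  have hgates : t.1 = 6 ∨ t.1 = 7 → ∀ c ∈ gatesCon ts (v + 4) t.2, GoodC N M c := by
    intro h67
    have hok : gatesOK r s t.2 = true := by
      simp only [tokOK, Bool.or_eq_true, Bool.and_eq_true, decide_eq_true_eq] at ht
      rcases ht with ht | ht
      · exact ht.2
      · omega
    exact gatesCon_good hM hts t.2 (by omega) hok ht2
  have hA : ∀ k, k ≤ v + 3 + t.2.length → vix (Av k) < N := fun k hk => by
    rw [vix_Av]; omega
  have hAa : vix (Av a) < N := by rw [vix_Av]; omega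
  have hAb : vix (Av b) < N := by rw [vix_Av]; omega
  intro c hc
  unfold tokCon at hc
  split_ifs at hc with h6 h7 h8 h9
  · simp only [List.mem_cons] at hc
    rcases hc with rfl | rfl | hc
    · exact goodC_1 (goodM_mk2 _ hM (hA _ (by omega)) (hA _ (by omega)))
    · exact goodC_3 (goodM_mk2 _ hM (hA _ (by omega)) (hA _ (by omega))) (goodM_mk0 _ hM)
        (goodM_mk1 _ hM (hA _ (by omega)))
    · exact hgates (Or.inl h6) c hc
  · simp only [List.mem_cons] at hc
    rcases hc with rfl | rfl | rfl | rfl | hc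
    · exact goodC_3 (goodM_mk1 _ hM (hA _ (by omega)))
        (goodM_mk2 _ hM (hA _ (by omega)) (hA _ (by omega)))
        (goodM_mk2 _ hM (hA _ (by omega)) (hA _ (by omega)))
    · exact goodC_2 (goodM_mk1 _ hM (hA _ (by omega)))
        (goodM_mk2 _ hM (hA _ (by omega)) (hA _ (by omega)))
    · exact goodC_1 (goodM_mk2 _ hM (hA _ (by omega)) (hA _ (by omega)))
    · exact goodC_2 (goodM_mk2 _ hM (hA _ (by omega)) (hA _ (by omega)))
        (goodM_mk1 _ hM (hA _ (by omega)))
    · exact hgates (Or.inr h7) c hc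
  · simp only [List.mem_cons, List.not_mem_nil, or_false] at hc
    subst hc
    exact goodC_2 (goodM_mk1 _ hM (hA _ (by omega))) (goodM_mk2 _ hM hAa hAb)
  · simp only [List.mem_cons, List.not_mem_nil, or_false] at hc
    subst hc
    exact goodC_4 (goodM_mk1 _ hM (hA _ (by omega))) (goodM_mk1 _ hM hAa) (goodM_mk1 _ hM hAb)
      (goodM_mk2 _ hM hAa hAb)
  · simp only [List.mem_cons, List.not_mem_nil, or_false] at hc
    subst hc
    exact goodC_3 (goodM_mk1 _ hM (hA _ (by omega))) (goodM_mk0 _ hM) (goodM_mk1 _ hM hAa)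

theorem fold_good {N M W : ℕ} {ts : List ℕ} {r s' : ℕ} (hM : 1 < M)
    (hts : 2 * ts.length < N) (hW : 2 * W + 1 < N) (T : List FTok)
    (hT : ∀ t ∈ T, tokOK r s' t = true) (hT2 : SmallT M T) :
    ∀ s : CSt, s.1 + cnt T ≤ W → (∀ a ∈ s.2.1, a ≤ W) → (∀ c ∈ s.2.2, GoodC N M c) →
      (∀ a ∈ (T.foldl (cStep ts) s).2.1, a ≤ W) ∧
      (∀ c ∈ (T.foldl (cStep ts) s).2.2, GoodC N M c) ∧
      (T.foldl (cStep ts) s).2.2.length ≤ s.2.2.length + cnt T := by
  induction T with
  | nil => intro s _ h2 h3; exact ⟨h2, h3, by simp⟩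
  | cons t T ih =>
    intro s h1 h2 h3
    rw [cnt_cons] at h1 ⊢
    rw [List.foldl_cons]
    have hs1 : (cStep ts s t).1 = s.1 + 4 + t.2.length := rfl
    have hs2 : (cStep ts s t).2.1 = nextStack s.1 s.2.1 t := rfl
    have hs3 : (cStep ts s t).2.2 =
      tokCon ts s.1 (s.2.1.getD 0 0) (s.2.1.getD 1 0) t ++ s.2.2 := rfl
    obtain ⟨f1, f2, f3⟩ := ih (fun t ht => hT t (by simp [ht])) (fun t ht => hT2 t (by simp [ht]))
      (cStep ts s t) (by rw [hs1]; omega)
      (by
        rw [hs2]
        intro a ha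
        rcases nextStack_mem ha with rfl | ha
        · omega
        · exact h2 a ha)
      (by
        rw [hs3]
        intro c hc
        rcases List.mem_append.1 hc with hc | hc
        · have q0 := getD_le h2 0
          have q1 := getD_le h2 1
          exact tokCon_good hM hts (by omega) (by omega) (by omega) (hT t (by simp))
            (fun g hg => (hT2 t (by simp) g hg).2) c hc
        · exact h3 c hc)
    refine ⟨f1, f2, f3.trans ?_⟩
    rw [hs3, List.length_append]
    have := tokCon_length ts s.1 (s.2.1.getD 0 0) (s.2.1.getD 1 0) t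
    omega

theorem consNats_good {N M : ℕ} {ts : List ℕ} (hM : 1 < M) (hlt : ∀ x ∈ ts, x < M)
    (hts : 2 * ts.length < N) (hW : 2 * (4 * ts.length) + 1 < N) (hv : ValidNats ts) :
    (∀ c ∈ consNats ts, GoodC N M c) ∧ (consNats ts).length ≤ 4 * ts.length + 1 := by
  obtain ⟨h1, -, h3, -⟩ := hv
  set T := toks (ts.drop 2) with hTdef
  have hcnt : cnt T ≤ 4 * ts.length := by
    have e1 := cnt_le_tl T
    have e2 := toks_tl (ts.drop 2)
    rw [List.length_drop, ← hTdef] at e2
    omega
  have hT : ∀ t ∈ T, tokOK (ts.getD 0 0) (ts.getD 1 0) t = true := by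
    rwa [List.all_eq_true] at h3
  have hT2 : SmallT M T := toks_small (by omega) _ (fun t ht => hlt t (List.mem_of_mem_drop ht))
  obtain ⟨f1, f2, f3⟩ := fold_good (W := 4 * ts.length) hM hts hW T hT hT2 (0, [], [])
    (by simpa using hcnt) (by simp) (by simp)
  unfold consNats
  rw [← hTdef]
  constructor
  · intro c hc
    rcases List.mem_cons.1 hc with rfl | hc
    · refine goodC_1 (goodM_mk1 _ hM ?_)
      have := getD_le f1 0
      rw [vix_Av]
      omega
    · exact f2 c hc
  · simp only [List.length_cons]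
    simp only [List.length_nil] at f3
    omega

/-- **Sizes of the constraints** of a valid bit string. -/
theorem constraints_bound {w : List Bool} (hw : Valid w) {c : SPoly} (hc : c ∈ constraints w) :
    c.length ≤ 4 ∧ ∀ m ∈ c, m.2.2.length ≤ 2 ∧ m.2.1 < 2 ^ w.length ∧
      (∀ i, Sum.inl i ∈ m.2.2 → i < 20 * (w.length + 1)) ∧
      (∀ j, Sum.inr j ∈ m.2.2 → j < 20 * (w.length + 1)) := by
  have h1 := decTok_length w
  have h2 : 2 ≤ (decTok w).length := hw.2.1
  have h3 : 1 < 2 ^ w.length := Nat.one_lt_two_pow (by omega)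
  obtain ⟨f1, f2⟩ := (consNats_good (N := 20 * (w.length + 1)) h3
    (fun x hx => decTok_lt hx) (by omega) (by omega) hw.2).1 c hc
  refine ⟨f1, fun m hm => ?_⟩
  obtain ⟨g1, g2, g3⟩ := f2 m hm
  exact ⟨g1, g2, fun i hi => g3 _ hi, fun j hj => g3 _ hj⟩

theorem constraints_length {w : List Bool} (hw : Valid w) :
    (constraints w).length ≤ 2 * w.length + 1 := by
  have h1 := decTok_length w
  have h2 : 2 ≤ (decTok w).length := hw.2.1
  have h3 : 1 < 2 ^ w.length := Nat.one_lt_two_pow (by omega)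
  have := (consNats_good (N := 20 * (w.length + 1)) h3
    (fun x hx => decTok_lt hx) (by omega) (by omega) hw.2).2
  unfold constraints
  omega

end Crest.Agent.R316.Parse
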