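import Crest.Agent.R316.Parse.Main
import Crest.Agent.R316.Parse.PTFCon
import Crest.Agent.R316.Parse.EvalMod

/-!
# R316 / Parse / Final : poly-time of `cons`, evaluation of `fW` and of its `y`-derivatives mod `q`
-/

set_option autoImplicit false
set_option linter.dupNamespace false

namespace Crest.Agent.R316.Parse

open Crest.Agent.Lib.PT MvPolynomial

section ptf

variable {α : Type} [PTCode α]

@[fun_prop]
theorem ptf_cons {f : α → List Bool} (hf : PTF f) : PTF (fun a => cons (f a)) := by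
  classical
  unfold cons
  refine (PTF.ite (ptpred_valid' hf) (ptf_constraints' hf) (PTF.const [])).of_eq fun a => ?_
  by_cases h : Valid (f a) <;> simp [h]

/-- version for raw strings -/
theorem ptf_cons_bits : PTF (fun w : Bits => cons w.val) := ptf_cons (by fun_prop)

theorem ptu_nVar {f : α → List Bool} (hf : PTF f) : PTU (fun a => nVar (f a)) := by
  unfold nVar
  exact PTU.mul (PTU.const 20) (PTU.succ (PTU.length hf))


end ptf

/-- specification of `evalMod (cons w)` -/
theorem evalMod_cons_spec {q : ℕ} (hq : 0 < q) (w : List Bool) (xs ys : List ℕ) :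
    ((evalMod (cons w) q xs ys : ℕ) : ZMod q) =
      ev2 (fun i : Fin (nVar w) => ((xs.getD i 0 : ℕ) : ZMod q))
        (fun i : Fin (nVar w) => ((ys.getD i 0 : ℕ) : ZMod q)) (fW w) := by
  rw [evalMod_spec hq, ev2_fW]
  exact sumSq_congr (cons_ok w).2 (fun i hi => by simp [ext0, hi]) (fun i hi => by simp [ext0, hi])

/-! ### derivatives with respect to `Y_j` -/

/-- derivative of a monomial of degree `≤ 2` -/
def dMono (j : ℕ) (m : Mono) : List Mono :=
  match m.2.2 with
  | [] => []
  | v :: l =>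
    match l with
    | [] => if v = Sum.inr j then [(m.1, m.2.1, [])] else []
    | u :: _ => (if v = Sum.inr j then [(m.1, m.2.1, [u])] else []) ++
        (if u = Sum.inr j then [(m.1, m.2.1, [v])] else [])

/-- derivative of a sparse polynomial of degree `≤ 2` -/
def dPoly (j : ℕ) (c : SPoly) : SPoly := c.flatMap (dMono j)

/-- value of the derivative of the sum of squares -/
def dSumSq {R : Type*} [CommRing R] (j : ℕ) (x y : ℕ → R) (cs : List SPoly) : R :=
  (cs.map fun c => 2 * SPoly.eval x y c * SPoly.eval x y (dPoly j c)).sum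

/-- value of the derivative of the sum of squares modulo `q` -/
def dEvalMod (cs : List SPoly) (j q : ℕ) (xs ys : List ℕ) : ℕ :=
  if q = 0 then 0
  else (cs.map fun c => 2 * SPoly.evalMod q xs ys c * SPoly.evalMod q xs ys (dPoly j c)).sum % q

theorem dEvalMod_lt {q : ℕ} (hq : 0 < q) (cs : List SPoly) (j : ℕ) (xs ys : List ℕ) :
    dEvalMod cs j q xs ys < q := by
  rw [dEvalMod, if_neg hq.ne']
  exact Nat.mod_lt _ hq

theorem dEvalMod_spec {q : ℕ} (hq : 0 < q) (cs : List SPoly) (j : ℕ) (xs ys : List ℕ) :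
    ((dEvalMod cs j q xs ys : ℕ) : ZMod q) =
      dSumSq j (fun i => ((xs.getD i 0 : ℕ) : ZMod q)) (fun j => ((ys.getD j 0 : ℕ) : ZMod q)) cs := by
  rw [dEvalMod, if_neg hq.ne', ZMod.natCast_mod, Nat.cast_list_sum, List.map_map, dSumSq]
  congr 1
  refine List.map_congr_left fun c _ => ?_
  rw [Function.comp_apply]
  push_cast
  rw [SPoly.evalMod_spec hq, SPoly.evalMod_spec hq]

section poly

theorem pderiv_varZ {n j : ℕ} (hj : j < n) (v : ℕ ⊕ ℕ) :
    pderiv (⟨j, hj⟩ : Fin n) (varZ n v) = if v = Sum.inr j then 1 else 0 := by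
  rcases v with i | k
  · by_cases h : i < n
    · simp [varZ, h]
    · simp [varZ, h]
  · by_cases h : k < n
    · by_cases hk : k = j
      · subst hk; simp [varZ, h]
      · have hne : (⟨k, h⟩ : Fin n) ≠ ⟨j, hj⟩ := by
          intro h'; exact hk (Fin.mk.inj h')
        simp [varZ, h, hk, pderiv_X_of_ne hne]
    · have hk : k ≠ j := by omega
      simp [varZ, h, hk]

theorem pderiv_monoZ {n j : ℕ} (hj : j < n) (m : Mono) (hm : m.2.2.length ≤ 2) :
    pderiv (⟨j, hj⟩ : Fin n) (monoZ n m) = ((dMono j m).map (monoZ n)).sum := by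
  obtain ⟨s, a, l⟩ := m
  have hc : ∀ z : ℤ, pderiv (⟨j, hj⟩ : Fin n) ((z : Zxy n)) = 0 := by
    intro z
    rw [← map_intCast (C : Zx n →+* Zxy n)]
    exact pderiv_C
  have e : ∀ l' : List (ℕ ⊕ ℕ), Mono.coef (s, a, l') = Mono.coef (s, a, l) := fun l' => rfl
  rcases l with _ | ⟨v, _ | ⟨u, _ | ⟨t, l⟩⟩⟩
  · simp [monoZ, dMono, hc]
  · simp only [monoZ, List.map_cons, List.map_nil, List.prod_cons, List.prod_nil, mul_one, dMono]
    rw [pderiv_mul, hc, pderiv_varZ hj]
    by_cases h : v = Sum.inr j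
    · simp [h, monoZ, e, Mono.coef]
    · simp [h]
  · simp only [monoZ, List.map_cons, List.map_nil, List.prod_cons, List.prod_nil, mul_one, dMono]
    rw [pderiv_mul, hc, pderiv_mul, pderiv_varZ hj, pderiv_varZ hj]
    by_cases h : v = Sum.inr j <;> by_cases h' : u = Sum.inr j
    · cases s
      · simp [h, h', monoZ, Mono.coef]; ring
      · simp [h, h', monoZ, Mono.coef]; ring
    · simp [h, h', monoZ, Mono.coef]
    · simp [h, h', monoZ, Mono.coef]
    · simp [h, h']
  · simp only [List.length_cons] at hm; omega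

theorem pderiv_polyZ {n j N B : ℕ} (hj : j < n) (c : SPoly) (hc : ConOK N B c) :
    pderiv (⟨j, hj⟩ : Fin n) (polyZ n c) = polyZ n (dPoly j c) := by
  have h : ∀ m ∈ c, m.2.2.length ≤ 2 := fun m hm => (hc.2 m hm).deg
  clear hc
  unfold polyZ dPoly
  induction c with
  | nil => simp
  | cons m c ih =>
    rw [List.map_cons, List.sum_cons, map_add, List.flatMap_cons, List.map_append,
      List.sum_append, pderiv_monoZ hj m (h m (by simp)), ih fun m' hm' => h m' (by simp [hm'])]

theorem pderiv_sumZ {A : Type*} [CommRing A] {n j N B : ℕ} (hj : j < n) (cs : List SPoly)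
    (hc : ∀ c ∈ cs, ConOK N B c) (x y : Fin n → A) :
    ev2Hom x y (pderiv (⟨j, hj⟩ : Fin n) (sumZ n cs)) = dSumSq j (ext0 x) (ext0 y) cs := by
  unfold sumZ dSumSq
  induction cs with
  | nil => simp
  | cons c cs ih =>
    rw [List.map_cons, List.sum_cons, map_add, map_add, ih fun c' hc' => hc c' (by simp [hc']),
      List.map_cons, List.sum_cons, pderiv_pow, pderiv_polyZ hj c (hc c (by simp))]
    simp only [map_mul, map_natCast, ev2Hom_polyZ, map_pow]
    norm_num

/-- value of `∂_{y_j} f` -/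
theorem ev2_pderiv_fW {A : Type*} [CommRing A] (w : List Bool) (x y : Fin (nVar w) → A)
    (j : Fin (nVar w)) :
    ev2 x y (pderiv j (fW w)) = dSumSq j (ext0 x) (ext0 y) (cons w) :=
  pderiv_sumZ j.2 (cons w) (cons_ok w).2 x y

theorem conOK_dPoly {N B : ℕ} {c : SPoly} (hc : ConOK N B c) (j : ℕ) :
    ∀ m ∈ dPoly j c, MonoOK N B m := by
  intro m hm
  obtain ⟨m0, hm0, h⟩ := List.mem_flatMap.1 hm
  have h0 := hc.2 m0 hm0
  obtain ⟨s, a, l⟩ := m0
  rcases l with _ | ⟨v, _ | ⟨u, l⟩⟩
  · simp [dMono] at h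
  · simp only [dMono] at h
    split_ifs at h with h1
    · simp only [List.mem_cons, List.not_mem_nil, or_false] at h
      subst h
      exact ⟨by simp, by simp, h0.coef⟩
    · simp at h
  · simp only [dMono, List.mem_append] at h
    have hv : VarOK N v := h0.vars v (by simp)
    have hu : VarOK N u := h0.vars u (by simp)
    rcases h with h | h
    · split_ifs at h with h1
      · simp only [List.mem_cons, List.not_mem_nil, or_false] at h
        subst h
        exact ⟨by simpa using hu, by simp, h0.coef⟩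
      · simp at h
    · split_ifs at h with h1
      · simp only [List.mem_cons, List.not_mem_nil, or_false] at h
        subst h
        exact ⟨by simpa using hv, by simp, h0.coef⟩
      · simp at h

theorem polyEval_congr {A : Type*} [CommRing A] {N B' : ℕ} {x x' y y' : ℕ → A} {c : SPoly}
    (hc : ∀ m ∈ c, MonoOK N B' m)
    (hx : ∀ i < N, x i = x' i) (hy : ∀ i < N, y i = y' i) :
    SPoly.eval x y c = SPoly.eval x' y' c := by
  unfold SPoly.eval
  congr 1
  exact List.map_congr_left fun m hm => monoEval_congr (hc m hm) hx hy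

theorem dEvalMod_cons_spec {q : ℕ} (hq : 0 < q) (w : List Bool) (j : Fin (nVar w))
    (xs ys : List ℕ) :
    ((dEvalMod (cons w) j q xs ys : ℕ) : ZMod q) =
      ev2 (fun i : Fin (nVar w) => ((xs.getD i 0 : ℕ) : ZMod q))
        (fun i : Fin (nVar w) => ((ys.getD i 0 : ℕ) : ZMod q)) (pderiv j (fW w)) := by
  rw [dEvalMod_spec hq, ev2_pderiv_fW]
  unfold dSumSq
  congr 1
  refine List.map_congr_left fun c hc => ?_
  have h1 := (cons_ok w).2 c hc
  have hx : ∀ i < nVar w, ((xs.getD i 0 : ℕ) : ZMod q) =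
      ext0 (fun i : Fin (nVar w) => ((xs.getD i 0 : ℕ) : ZMod q)) i := fun i hi => by
    simp [ext0, hi]
  have hy : ∀ i < nVar w, ((ys.getD i 0 : ℕ) : ZMod q) =
      ext0 (fun i : Fin (nVar w) => ((ys.getD i 0 : ℕ) : ZMod q)) i := fun i hi => by
    simp [ext0, hi]
  rw [polyEval_congr h1.2 hx hy, polyEval_congr (conOK_dPoly h1 j) hx hy]

end poly

section ptf

variable {α : Type} [PTCode α]

theorem ptf_dMono {j : α → ℕ} {m : α → Mono} (hj : PTF j) (hm : PTF m) :
    PTF (fun a => dMono (j a) (m a)) := by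
  have key : PTF (fun p : (ℕ × Mono) => dMono p.1 p.2) := by
    have h1 : PTF (fun p : (ℕ × Mono) × (ℕ ⊕ ℕ) × List (ℕ ⊕ ℕ) =>
        (match p.2.2 with
        | [] => if p.2.1 = Sum.inr p.1.1 then [(p.1.2.1, p.1.2.2.1, ([] : List (ℕ ⊕ ℕ)))] else []
        | u :: _ => (if p.2.1 = Sum.inr p.1.1 then [(p.1.2.1, p.1.2.2.1, [u])] else []) ++
          (if u = Sum.inr p.1.1 then [(p.1.2.1, p.1.2.2.1, [p.2.1])] else []) : List Mono)) := by
      refine (PTF.listCasesOn (s := fun p : (ℕ × Mono) × (ℕ ⊕ ℕ) × List (ℕ ⊕ ℕ) => p.2.2)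
        (f := fun p => if p.2.1 = Sum.inr p.1.1 then [(p.1.2.1, p.1.2.2.1, ([] : List (ℕ ⊕ ℕ)))]
          else [])
        (g := fun p u _ => (if p.2.1 = Sum.inr p.1.1 then [(p.1.2.1, p.1.2.2.1, [u])] else []) ++
          (if u = Sum.inr p.1.1 then [(p.1.2.1, p.1.2.2.1, [p.2.1])] else []))
        (by fun_prop) ?_ ?_).of_eq fun p => by
          rcases p with ⟨p1, p2, p3⟩
          cases p3 <;> rfl
      · exact PTF.ite (PTPred.eq (by fun_prop) (by fun_prop)) (by fun_prop) (by fun_prop)
      · exact PTF.append (PTF.ite (PTPred.eq (by fun_prop) (by fun_prop)) (by fun_prop)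
          (by fun_prop)) (PTF.ite (PTPred.eq (by fun_prop) (by fun_prop)) (by fun_prop)
          (by fun_prop))
    refine (PTF.listCasesOn (s := fun p : ℕ × Mono => p.2.2.2) (f := fun _ => ([] : List Mono))
      (g := fun p v l => (match l with
        | [] => if v = Sum.inr p.1 then [(p.2.1, p.2.2.1, ([] : List (ℕ ⊕ ℕ)))] else []
        | u :: _ => (if v = Sum.inr p.1 then [(p.2.1, p.2.2.1, [u])] else []) ++
          (if u = Sum.inr p.1 then [(p.2.1, p.2.2.1, [v])] else []) : List Mono))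
      (by fun_prop) (PTF.const _) h1).of_eq fun p => ?_
    rcases p with ⟨j, s, a, l⟩
    rcases l with _ | ⟨v, _ | ⟨u, l⟩⟩ <;> rfl
  exact PTF.comp (f := fun a => (j a, m a)) key (PTF.prodMk hj hm)

theorem ptf_dPoly {j : α → ℕ} {c : α → SPoly} (hj : PTF j) (hc : PTF c) :
    PTF (fun a => dPoly (j a) (c a)) := by
  unfold dPoly
  exact PTF.flatMap (f := fun a m => dMono (j a) m) hc
    (ptf_dMono (hj.comp PTF.fst) PTF.snd)

theorem ptf_dEvalMod {cs : α → List SPoly} {j q : α → ℕ} {xs ys : α → List ℕ} (hc : PTF cs)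
    (hj : PTF j) (hq : PTF q) (hx : PTF xs) (hy : PTF ys) :
    PTF (fun a => dEvalMod (cs a) (j a) (q a) (xs a) (ys a)) := by
  have h1 : PTF (fun a => ((cs a).map fun c => 2 * SPoly.evalMod (q a) (xs a) (ys a) c *
      SPoly.evalMod (q a) (xs a) (ys a) (dPoly (j a) c)).sum) := by
    refine PTF.natListSum (PTF.map (f := fun a c => 2 * SPoly.evalMod (q a) (xs a) (ys a) c *
      SPoly.evalMod (q a) (xs a) (ys a) (dPoly (j a) c)) hc ?_)
    have h2 : PTF (fun p : α × SPoly => dPoly (j p.1) p.2) :=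
      ptf_dPoly (hj.comp PTF.fst) PTF.snd
    exact PTF.natMul (PTF.natMul (PTF.const 2) (ptf_spolyEvalMod (by fun_prop) (by fun_prop)
      (by fun_prop) (by fun_prop))) (ptf_spolyEvalMod (by fun_prop) (by fun_prop) (by fun_prop) h2)
  unfold dEvalMod
  exact PTF.ite (PTPred.natEq hq (PTF.const 0)) (PTF.const 0) (PTF.natMod h1 hq)

end ptf

end Crest.Agent.R316.Parse
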