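import Crest.Agent.R316.Parse.Compile
import Crest.Agent.R316.Alg.Fam

/-!
# R316 / Parse / Main : packaged form

* `cons w` : the constraints if `w` is valid, `[]` otherwise;
* `nVar w = 20 * (|w| + 1)` bounds all variable indices;
* `fW w : Zxy (nVar w)` the sum of squares; `mem_eatr_iff : w ∈ EATR ↔ Truth (fW w)`;
* `ev2_fW`, `ev2_fW_nonneg`, `totalDegree_fW`, `bd_fW`.
-/

set_option autoImplicit false

namespace Crest.Agent.R316.Parse

open Crest.RealEA MvPolynomial

/-! ### shape of the constraints -/

/-- index bound -/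
def VarOK (N : ℕ) (v : ℕ ⊕ ℕ) : Prop := Sum.elim (fun i => i < N) (fun j => j < N) v

/-- monomials of degree `≤ 2`, indices `< N`, coefficients `< B` -/
structure MonoOK (N B : ℕ) (m : Mono) : Prop where
  vars : ∀ v ∈ m.2.2, VarOK N v
  deg : m.2.2.length ≤ 2
  coef : m.2.1 < B

/-- constraints with at most four monomials -/
def ConOK (N B : ℕ) (c : SPoly) : Prop := c.length ≤ 4 ∧ ∀ m ∈ c, MonoOK N B m

theorem varOK_Av {N k : ℕ} (h : 2 * k + 1 < N) : VarOK N (Av k) := h

theorem varOK_inl {N k : ℕ} (h : k < N) : VarOK N (Sum.inl k) := h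

theorem varOK_inr {N k : ℕ} (h : k < N) : VarOK N (Sum.inr k) := h

theorem monoOK_pm {N B : ℕ} (hB : 1 < B) {l : List (ℕ ⊕ ℕ)} (h : ∀ v ∈ l, VarOK N v)
    (hl : l.length ≤ 2) : MonoOK N B (pm l) := ⟨h, hl, hB⟩

theorem monoOK_nm {N B : ℕ} (hB : 1 < B) {l : List (ℕ ⊕ ℕ)} (h : ∀ v ∈ l, VarOK N v)
    (hl : l.length ≤ 2) : MonoOK N B (nm l) := ⟨h, hl, hB⟩

theorem conOK_gate {ts : List ℕ} {N B v j r s : ℕ} {g : AGate} (hB : 1 < B)
    (hts : 2 * ts.length < N) (hN : 2 * (v + j) + 1 < N) (hg : g.WF r s j)
    (hc : ∀ i ∈ g.toNats, i < B) : ConOK N B (gateCon ts v j (toGt g)) := by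
  have hj : VarOK N (Av (v + j)) := varOK_Av hN
  have h0 : MonoOK N B (pm [Av (v + j)]) := monoOK_pm hB (by simpa using hj) (by simp)
  cases g with
  | const z =>
    refine ⟨by simp [gateCon, toGt], ?_⟩
    simp only [gateCon, toGt, if_true, List.mem_cons, List.not_mem_nil, or_false]
    rintro m (h | h)
    · rw [h]; exact h0
    · rw [h]
      exact ⟨by simp, by simp, hc _ (by simp [AGate.toNats])⟩
  | varX i =>
    have hi : ts.idxOf i < N := by
      have := List.idxOf_le_length (l := ts) (a := i); omega
    refine ⟨by simp [gateCon, toGt], ?_⟩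
    simp only [gateCon, toGt, one_ne_zero, if_false, if_true, List.mem_cons, List.not_mem_nil,
      or_false]
    rintro m (h | h)
    · rw [h]; exact h0
    · rw [h]
      exact monoOK_nm hB (by simpa using varOK_inl hi) (by simp)
  | varY i =>
    have hi : 2 * ts.idxOf i < N := by
      have := List.idxOf_le_length (l := ts) (a := i); omega
    refine ⟨by simp [gateCon, toGt], ?_⟩
    have h21 : ¬ ((2 : ℕ) = 0) := by omega
    have h22 : ¬ ((2 : ℕ) = 1) := by omega
    simp only [gateCon, toGt, h21, h22, if_false, if_true, List.mem_cons, List.not_mem_nil,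
      or_false]
    rintro m (h | h)
    · rw [h]; exact h0
    · rw [h]
      exact monoOK_nm hB (by simpa using varOK_inr hi) (by simp)
  | add a b =>
    have ha : VarOK N (Av (v + a)) := varOK_Av (by have := hg.1; omega)
    have hb : VarOK N (Av (v + b)) := varOK_Av (by have := hg.2; omega)
    refine ⟨by simp [gateCon, toGt], ?_⟩
    have h30 : ¬ ((3 : ℕ) = 0) := by omega
    have h31 : ¬ ((3 : ℕ) = 1) := by omega
    have h32 : ¬ ((3 : ℕ) = 2) := by omega
    simp only [gateCon, toGt, h30, h31, h32, if_false, if_true, List.mem_cons, List.not_mem_nil,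
      or_false]
    rintro m (h | h | h)
    · rw [h]; exact h0
    · rw [h]; exact monoOK_nm hB (by simpa using ha) (by simp)
    · rw [h]; exact monoOK_nm hB (by simpa using hb) (by simp)
  | sub a b =>
    have ha : VarOK N (Av (v + a)) := varOK_Av (by have := hg.1; omega)
    have hb : VarOK N (Av (v + b)) := varOK_Av (by have := hg.2; omega)
    refine ⟨by simp [gateCon, toGt], ?_⟩
    have h30 : ¬ ((4 : ℕ) = 0) := by omega
    have h31 : ¬ ((4 : ℕ) = 1) := by omega
    have h32 : ¬ ((4 : ℕ) = 2) := by omega
    have h33 : ¬ ((4 : ℕ) = 3) := by omega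
    simp only [gateCon, toGt, h30, h31, h32, h33, if_false, if_true, List.mem_cons,
      List.not_mem_nil, or_false]
    rintro m (h | h | h)
    · rw [h]; exact h0
    · rw [h]; exact monoOK_nm hB (by simpa using ha) (by simp)
    · rw [h]; exact monoOK_pm hB (by simpa using hb) (by simp)
  | mul a b =>
    have ha : VarOK N (Av (v + a)) := varOK_Av (by have := hg.1; omega)
    have hb : VarOK N (Av (v + b)) := varOK_Av (by have := hg.2; omega)
    refine ⟨by simp [gateCon, toGt], ?_⟩
    have h30 : ¬ ((5 : ℕ) = 0) := by omega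
    have h31 : ¬ ((5 : ℕ) = 1) := by omega
    have h32 : ¬ ((5 : ℕ) = 2) := by omega
    have h33 : ¬ ((5 : ℕ) = 3) := by omega
    have h34 : ¬ ((5 : ℕ) = 4) := by omega
    simp only [gateCon, toGt, h30, h31, h32, h33, h34, if_false, List.mem_cons,
      List.not_mem_nil, or_false]
    rintro m (h | h)
    · rw [h]; exact h0
    · rw [h]
      refine monoOK_nm hB ?_ (by simp)
      simp only [List.mem_cons, List.not_mem_nil, or_false]
      rintro w (h | h)
      · rw [h]; exact ha
      · rw [h]; exact hb

theorem conOK_gates {ts : List ℕ} {N B v r s : ℕ} (c : List AGate) (hB : 1 < B)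
    (hts : 2 * ts.length < N) (hN : 2 * (v + c.length) < N) (hc : gatesWF r s c)
    (hcc : ∀ i ∈ c.flatMap AGate.toNats, i < B) :
    ∀ p ∈ gatesCon ts v (rgates c), ConOK N B p := by
  induction c using List.reverseRecOn with
  | nil => simp [gatesCon]
  | append_singleton c g ih =>
    obtain ⟨h1, h2⟩ := gatesWF_append.1 hc
    simp only [List.length_append, List.length_cons, List.length_nil, zero_add] at hN
    rw [rgates_append, gatesCon]
    intro p hp
    rcases List.mem_cons.1 hp with h | h
    · rw [h, length_rgates]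
      exact conOK_gate hB hts (by omega) h2 (fun i hi => hcc i (by simp [hi]))
    · exact ih (by omega) h1
        (fun i hi => hcc i (by simp only [List.flatMap_append, List.mem_append]; exact .inl hi))
        p h

theorem length_gatesCon (ts : List ℕ) (v : ℕ) (l : List Gt) : (gatesCon ts v l).length = l.length := by
  induction l with
  | nil => rfl
  | cons g l ih => simp [gatesCon, ih]

theorem length_con (ts : List ℕ) (φ : Form) (v : ℕ) (S : List ℕ) :
    (con ts φ v S).length + v ≤ nv φ v := by
  induction φ generalizing v S with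
  | eqZero c => simp [con, tokCon, nv, length_gatesCon]; omega
  | pos c => simp [con, tokCon, nv, length_gatesCon]; omega
  | and φ ψ ih1 ih2 =>
    have h1 := ih2 v S
    have h2 := ih1 (nv ψ v) (rt ψ v :: S)
    simp [con, tokCon, nv]; omega
  | or φ ψ ih1 ih2 =>
    have h1 := ih2 v S
    have h2 := ih1 (nv ψ v) (rt ψ v :: S)
    simp [con, tokCon, nv]; omega
  | not φ ih =>
    have h1 := ih v S
    simp [con, tokCon, nv]; omega

theorem length_circuitToNats (c : List AGate) : 2 * c.length + 1 ≤ (circuitToNats c).length := by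
  unfold circuitToNats
  induction c with
  | nil => simp
  | cons g c ih =>
    simp only [List.length_cons, List.flatMap_cons, List.length_append] at ih ⊢
    have : 2 ≤ g.toNats.length := by cases g <;> simp [AGate.toNats]
    omega

theorem nv_le (φ : Form) (v : ℕ) : nv φ v ≤ v + 4 * φ.toNats.length := by
  induction φ generalizing v with
  | eqZero c =>
    have := length_circuitToNats c
    simp only [nv, Form.toNats, List.length_cons]; omega
  | pos c =>
    have := length_circuitToNats c
    simp only [nv, Form.toNats, List.length_cons]; omega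
  | and φ ψ ih1 ih2 =>
    have h1 := ih2 v
    have h2 := ih1 (nv ψ v)
    simp only [nv, Form.toNats, List.length_cons, List.length_append]; omega
  | or φ ψ ih1 ih2 =>
    have h1 := ih2 v
    have h2 := ih1 (nv ψ v)
    simp only [nv, Form.toNats, List.length_cons, List.length_append]; omega
  | not φ ih =>
    have h1 := ih v
    simp only [nv, Form.toNats, List.length_cons]; omega

/-- helper: constraints given by short lists of variables -/
theorem conOK_of {N B : ℕ} {c : SPoly} (h1 : c.length ≤ 4) (h2 : ∀ m ∈ c, MonoOK N B m) :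
    ConOK N B c := ⟨h1, h2⟩

theorem conOK_con {ts : List ℕ} {N B r s : ℕ} (φ : Form) (hφ : φ.WF r s) (hB : 1 < B)
    (hts : 2 * ts.length < N) (v : ℕ) (S : List ℕ) (hN : 2 * nv φ v < N)
    (hc : ∀ i ∈ φ.toNats, i < B) : ∀ p ∈ con ts φ v S, ConOK N B p := by
  have P : ∀ k : ℕ, 2 * k + 1 < N → MonoOK N B (pm [Av k]) := fun k hk =>
    monoOK_pm hB (by simpa using varOK_Av hk) (by simp)
  have Q : ∀ k : ℕ, 2 * k + 1 < N → MonoOK N B (nm [Av k]) := fun k hk =>
    monoOK_nm hB (by simpa using varOK_Av hk) (by simp)
  have P2 : ∀ k l : ℕ, 2 * k + 1 < N → 2 * l + 1 < N → MonoOK N B (pm [Av k, Av l]) :=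
    fun k l hk hl => monoOK_pm hB (by
      simp only [List.mem_cons, List.not_mem_nil, or_false]
      rintro w (h | h)
      · rw [h]; exact varOK_Av hk
      · rw [h]; exact varOK_Av hl) (by simp)
  have Q2 : ∀ k l : ℕ, 2 * k + 1 < N → 2 * l + 1 < N → MonoOK N B (nm [Av k, Av l]) :=
    fun k l hk hl => monoOK_nm hB (by
      simp only [List.mem_cons, List.not_mem_nil, or_false]
      rintro w (h | h)
      · rw [h]; exact varOK_Av hk
      · rw [h]; exact varOK_Av hl) (by simp)
  have Q0 : MonoOK N B (nm []) := monoOK_nm hB (by simp) (by simp)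
  induction φ generalizing v S with
  | eqZero c =>
    simp only [nv] at hN
    have hg := conOK_gates (ts := ts) (v := v + 4) c hB hts (by omega) hφ.2
      (fun i hi => hc i (by simp [Form.toNats, circuitToNats, hi]))
    simp only [con, tokCon, if_true, length_rgates, List.mem_cons]
    rintro p (h | h | h)
    · rw [h]
      refine conOK_of (by simp) ?_
      simp only [List.mem_cons, List.not_mem_nil, or_false]
      rintro m h
      rw [h]; exact P2 _ _ (by omega) (by omega)
    · rw [h]
      refine conOK_of (by simp) ?_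
      simp only [List.mem_cons, List.not_mem_nil, or_false]
      rintro m (h | h | h)
      · rw [h]; exact P2 _ _ (by omega) (by omega)
      · rw [h]; exact Q0
      · rw [h]; exact P _ (by omega)
    · exact hg p h
  | pos c =>
    simp only [nv] at hN
    have hg := conOK_gates (ts := ts) (v := v + 4) c hB hts (by omega) hφ.2
      (fun i hi => hc i (by simp [Form.toNats, circuitToNats, hi]))
    have h76 : ¬ ((7 : ℕ) = 6) := by omega
    simp only [con, tokCon, if_true, h76, if_false, length_rgates, List.mem_cons]
    rintro p (h | h | h | h | h)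
    · rw [h]
      refine conOK_of (by simp) ?_
      simp only [List.mem_cons, List.not_mem_nil, or_false]
      rintro m (h | h | h)
      · rw [h]; exact P _ (by omega)
      · rw [h]; exact Q2 _ _ (by omega) (by omega)
      · rw [h]; exact P2 _ _ (by omega) (by omega)
    · rw [h]
      refine conOK_of (by simp) ?_
      simp only [List.mem_cons, List.not_mem_nil, or_false]
      rintro m (h | h)
      · rw [h]; exact P _ (by omega)
      · rw [h]; exact Q2 _ _ (by omega) (by omega)
    · rw [h]
      refine conOK_of (by simp) ?_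
      simp only [List.mem_cons, List.not_mem_nil, or_false]
      rintro m h
      rw [h]; exact P2 _ _ (by omega) (by omega)
    · rw [h]
      refine conOK_of (by simp) ?_
      simp only [List.mem_cons, List.not_mem_nil, or_false]
      rintro m (h | h)
      · rw [h]; exact P2 _ _ (by omega) (by omega)
      · rw [h]; exact Q _ (by omega)
    · exact hg p h
  | and φ ψ ih1 ih2 =>
    simp only [nv] at hN
    have b1 := rt_bounds φ (nv ψ v)
    have b2 := rt_bounds ψ v
    have b3 := nv_ge φ (nv ψ v)
    have b4 := nv_ge ψ v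
    have h86 : ¬ ((8 : ℕ) = 6) := by omega
    have h87 : ¬ ((8 : ℕ) = 7) := by omega
    simp only [con, tokCon, if_true, h86, h87, if_false, List.mem_append, List.mem_cons,
      List.not_mem_nil, or_false]
    rintro p (h | h | h)
    · rw [h]
      refine conOK_of (by simp) ?_
      simp only [List.mem_cons, List.not_mem_nil, or_false]
      rintro m (h | h)
      · rw [h]; exact P _ (by omega)
      · rw [h]; exact Q2 _ _ (by omega) (by omega)
    · exact ih1 hφ.1 _ _ (by omega) (fun i hi => hc i (by simp [Form.toNats, hi])) p h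
    · exact ih2 hφ.2 _ _ (by omega) (fun i hi => hc i (by simp [Form.toNats, hi])) p h
  | or φ ψ ih1 ih2 =>
    simp only [nv] at hN
    have b1 := rt_bounds φ (nv ψ v)
    have b2 := rt_bounds ψ v
    have b3 := nv_ge φ (nv ψ v)
    have b4 := nv_ge ψ v
    have h86 : ¬ ((9 : ℕ) = 6) := by omega
    have h87 : ¬ ((9 : ℕ) = 7) := by omega
    have h88 : ¬ ((9 : ℕ) = 8) := by omega
    simp only [con, tokCon, if_true, h86, h87, h88, if_false, List.mem_append, List.mem_cons,
      List.not_mem_nil, or_false]
    rintro p (h | h | h)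
    · rw [h]
      refine conOK_of (by simp) ?_
      simp only [List.mem_cons, List.not_mem_nil, or_false]
      rintro m (h | h | h | h)
      · rw [h]; exact P _ (by omega)
      · rw [h]; exact Q _ (by omega)
      · rw [h]; exact Q _ (by omega)
      · rw [h]; exact P2 _ _ (by omega) (by omega)
    · exact ih1 hφ.1 _ _ (by omega) (fun i hi => hc i (by simp [Form.toNats, hi])) p h
    · exact ih2 hφ.2 _ _ (by omega) (fun i hi => hc i (by simp [Form.toNats, hi])) p h
  | not φ ih =>
    simp only [nv] at hN
    have b1 := rt_bounds φ v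
    have b3 := nv_ge φ v
    have h86 : ¬ ((10 : ℕ) = 6) := by omega
    have h87 : ¬ ((10 : ℕ) = 7) := by omega
    have h88 : ¬ ((10 : ℕ) = 8) := by omega
    have h89 : ¬ ((10 : ℕ) = 9) := by omega
    simp only [con, tokCon, h86, h87, h88, h89, if_false, List.mem_append, List.mem_cons,
      List.not_mem_nil, or_false]
    rintro p (h | h)
    · rw [h]
      refine conOK_of (by simp) ?_
      simp only [List.mem_cons, List.not_mem_nil, or_false]
      rintro m (h | h | h)
      · rw [h]; exact P _ (by omega)
      · rw [h]; exact Q0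
      · rw [h]; exact P _ (by omega)
    · exact ih hφ _ _ (by omega) (fun i hi => hc i (by simp [Form.toNats, hi])) p h

/-! ### the packaged form -/

open Classical in
/-- constraints, `[]` for invalid strings -/
noncomputable def cons (w : List Bool) : List SPoly := if Valid w then constraints w else []

/-- number of variables (the same for `x` and for `y`) -/
def nVar (w : List Bool) : ℕ := 20 * (w.length + 1)

instance (w : List Bool) : NeZero (nVar w) := ⟨by unfold nVar; omega⟩

theorem nVar_pos (w : List Bool) : 0 < nVar w := by unfold nVar; omega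

theorem length_natBits (k : ℕ) : (natBits k).length = 2 * k.size + 2 := by
  have h : ∀ l : List Bool, (l.flatMap fun d => [true, d]).length = 2 * l.length := by
    intro l
    induction l with
    | nil => rfl
    | cons b l ih => simp [ih]; ring
  simp [natBits, h, Nat.size_eq_bits_len]

theorem length_encTok_ge (ts : List ℕ) : 2 * ts.length ≤ (encTok ts).length := by
  unfold encTok
  induction ts with
  | nil => simp
  | cons k ts ih =>
    simp only [List.length_cons, List.flatMap_cons, List.length_append, length_natBits]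
    omega

theorem lt_of_mem_encTok {ts : List ℕ} {i : ℕ} (h : i ∈ ts) : i < 2 ^ (encTok ts).length := by
  unfold encTok
  induction ts with
  | nil => simp at h
  | cons k ts ih =>
    simp only [List.flatMap_cons, List.length_append, length_natBits]
    rcases List.mem_cons.1 h with h | h
    · subst h
      calc i < 2 ^ i.size := Nat.lt_size_self i
        _ ≤ _ := Nat.pow_le_pow_right (by norm_num) (by omega)
    · refine (ih h).trans_le (Nat.pow_le_pow_right (by norm_num) (by omega))

theorem cons_ok (w : List Bool) :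
    (cons w).length ≤ nVar w ∧ ∀ c ∈ cons w, ConOK (nVar w) (2 ^ (w.length + 1)) c := by
  unfold cons
  split_ifs with hv
  · obtain ⟨S, hS, rfl⟩ := valid_iff.1 hv
    unfold constraints
    rw [encode_eq, decTok_encTok]
    set ts := S.toNats with hts
    have htk : toks (ts.drop 2) = rtoks S.body := by
      rw [hts]
      simp only [Sentence.toNats, List.drop_succ_cons, List.drop_zero]
      exact toks_toNats _
    have hcons : consNats ts = [pm [Av (rt S.body 0)]] :: con ts S.body 0 [] := by
      unfold consNats
      rw [htk, foldl_cStep]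
      simp
    have h1 := length_encTok_ge ts
    have h2 := nv_le S.body 0
    have h3 := length_con ts S.body 0 []
    have h4 : S.body.toNats.length ≤ ts.length := by rw [hts]; simp [Sentence.toNats]; omega
    have h5 := rt_bounds S.body 0
    have hB : 1 < 2 ^ ((encTok ts).length + 1) := Nat.one_lt_two_pow (by omega)
    rw [hcons]
    unfold nVar
    constructor
    · simp only [List.length_cons]; omega
    · intro c hc
      rcases List.mem_cons.1 hc with h | h
      · rw [h]
        refine conOK_of (by simp) ?_
        simp only [List.mem_cons, List.not_mem_nil, or_false]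
        rintro m h
        rw [h]
        exact monoOK_pm hB (by simpa using varOK_Av (by omega)) (by simp)
      · refine conOK_con S.body hS hB (by omega) 0 [] (by omega) (fun i hi => ?_) c h
        have : i ∈ ts := by rw [hts]; simp [Sentence.toNats, hi]
        exact (lt_of_mem_encTok this).trans_le (Nat.pow_le_pow_right (by norm_num) (by omega))
  · simp

/-- **Main statement, list form** (for all strings) -/
theorem mem_eatr_iff_cons {w : List Bool} :
    w ∈ EATR ↔ ∃ X : ℕ → ℝ, ∀ Y : ℕ → ℝ, sumSq X Y (cons w) ≠ 0 := by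
  unfold cons
  rw [eatr_iff]
  split_ifs with h
  · simp [h]
  · simp [h, sumSq]

/-! ### two-level polynomials -/

section poly
variable {A B : Type*} [CommRing A] [CommRing B]

/-- extension of a finite tuple by zeros -/
def ext0 {n : ℕ} (x : Fin n → A) (i : ℕ) : A := if h : i < n then x ⟨i, h⟩ else 0

/-- a variable as a two-level polynomial -/
noncomputable def varZ (n : ℕ) : ℕ ⊕ ℕ → Zxy n
  | Sum.inl i => if h : i < n then C (X ⟨i, h⟩) else 0
  | Sum.inr j => if h : j < n then X ⟨j, h⟩ else 0

/-- a monomial as a two-level polynomial -/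
noncomputable def monoZ (n : ℕ) (m : Mono) : Zxy n :=
  (m.coef : Zxy n) * (m.2.2.map (varZ n)).prod

/-- a sparse polynomial as a two-level polynomial -/
noncomputable def polyZ (n : ℕ) (c : SPoly) : Zxy n := (c.map (monoZ n)).sum

/-- sum of squares as a two-level polynomial -/
noncomputable def sumZ (n : ℕ) (cs : List SPoly) : Zxy n := (cs.map fun c => polyZ n c ^ 2).sum

/-- `ev2` as a ring homomorphism -/
noncomputable def ev2Hom {n : ℕ} (x y : Fin n → A) : Zxy n →+* A :=
  (eval y).comp (map (xhom x))

theorem ev2Hom_apply {n : ℕ} (x y : Fin n → A) (f : Zxy n) : ev2Hom x y f = ev2 x y f := rfl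

theorem ev2Hom_varZ {n : ℕ} (x y : Fin n → A) (v : ℕ ⊕ ℕ) :
    ev2Hom x y (varZ n v) = Sum.elim (ext0 x) (ext0 y) v := by
  rcases v with i | j
  · by_cases h : i < n
    · simp [ev2Hom, varZ, ext0, h, xhom]
    · simp [varZ, ext0, h]
  · by_cases h : j < n
    · simp [ev2Hom, varZ, ext0, h]
    · simp [varZ, ext0, h]

theorem ev2Hom_monoZ {n : ℕ} (x y : Fin n → A) (m : Mono) :
    ev2Hom x y (monoZ n m) = Mono.eval (ext0 x) (ext0 y) m := by
  unfold monoZ Mono.eval
  rw [map_mul, map_intCast, map_list_prod, List.map_map]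
  congr 3
  funext v
  exact ev2Hom_varZ x y v

theorem ev2Hom_polyZ {n : ℕ} (x y : Fin n → A) (c : SPoly) :
    ev2Hom x y (polyZ n c) = SPoly.eval (ext0 x) (ext0 y) c := by
  unfold polyZ SPoly.eval
  rw [map_list_sum, List.map_map]
  congr 2
  funext m
  exact ev2Hom_monoZ x y m

theorem ev2Hom_sumZ {n : ℕ} (x y : Fin n → A) (cs : List SPoly) :
    ev2Hom x y (sumZ n cs) = sumSq (ext0 x) (ext0 y) cs := by
  unfold sumZ sumSq
  rw [map_list_sum, List.map_map]
  congr 2
  funext c
  simp [ev2Hom_polyZ]

/-- evaluation commutes with ring homomorphisms -/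
theorem map_monoEval (θ : A →+* B) (x y : ℕ → A) (m : Mono) :
    θ (Mono.eval x y m) = Mono.eval (fun i => θ (x i)) (fun i => θ (y i)) m := by
  unfold Mono.eval
  rw [map_mul, map_intCast, map_list_prod, List.map_map]
  congr 3
  funext v
  rcases v with i | j <;> rfl

theorem map_polyEval (θ : A →+* B) (x y : ℕ → A) (c : SPoly) :
    θ (SPoly.eval x y c) = SPoly.eval (fun i => θ (x i)) (fun i => θ (y i)) c := by
  unfold SPoly.eval
  rw [map_list_sum, List.map_map]
  congr 2
  funext m
  exact map_monoEval θ x y m

theorem map_sumSq (θ : A →+* B) (x y : ℕ → A) (cs : List SPoly) :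
    θ (sumSq x y cs) = sumSq (fun i => θ (x i)) (fun i => θ (y i)) cs := by
  unfold sumSq
  rw [map_list_sum, List.map_map]
  congr 2
  funext c
  simp [map_polyEval θ]

theorem monoEval_congr {N B' : ℕ} {x x' y y' : ℕ → A} {m : Mono} (hm : MonoOK N B' m)
    (hx : ∀ i < N, x i = x' i) (hy : ∀ i < N, y i = y' i) :
    Mono.eval x y m = Mono.eval x' y' m := by
  unfold Mono.eval
  congr 2
  refine List.map_congr_left fun v hv => ?_
  have := hm.vars v hv
  rcases v with i | j
  · exact hx i this
  · exact hy j this

theorem sumSq_congr {N B' : ℕ} {x x' y y' : ℕ → A} {cs : List SPoly}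
    (hcs : ∀ c ∈ cs, ConOK N B' c)
    (hx : ∀ i < N, x i = x' i) (hy : ∀ i < N, y i = y' i) :
    sumSq x y cs = sumSq x' y' cs := by
  unfold sumSq
  congr 1
  refine List.map_congr_left fun c hc => ?_
  congr 1
  unfold SPoly.eval
  congr 1
  exact List.map_congr_left fun m hm => monoEval_congr ((hcs c hc).2 m hm) hx hy

end poly

/-- the polynomial of the sentence -/
noncomputable def fW (w : List Bool) : Zxy (nVar w) := sumZ (nVar w) (cons w)

theorem ev2_fW {A : Type*} [CommRing A] (w : List Bool) (x y : Fin (nVar w) → A) :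
    ev2 x y (fW w) = sumSq (ext0 x) (ext0 y) (cons w) := ev2Hom_sumZ x y _

theorem ev2_fW_nonneg (w : List Bool) (x y : Fin (nVar w) → ℝ) : 0 ≤ ev2 x y (fW w) := by
  rw [ev2_fW]
  unfold sumSq
  apply List.sum_nonneg
  intro a ha
  obtain ⟨c, _, rfl⟩ := List.mem_map.1 ha
  exact sq_nonneg _

theorem ext0_restrict {A : Type*} [CommRing A] {n : ℕ} (x : ℕ → A) {i : ℕ} (hi : i < n) :
    ext0 (fun j : Fin n => x j) i = x i := by simp [ext0, hi]

/-- **Main statement, polynomial form** -/
theorem mem_eatr_iff {w : List Bool} : w ∈ EATR ↔ Truth (fW w) := by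
  rw [mem_eatr_iff_cons]
  unfold Truth
  constructor
  · rintro ⟨X, hX⟩
    refine ⟨fun i => X i, fun y => ?_⟩
    rw [ev2_fW, sumSq_congr (cons_ok w).2 (x' := X) (y' := ext0 y)
      (fun i hi => ext0_restrict X hi) (fun _ _ => rfl)]
    exact hX _
  · rintro ⟨x, hx⟩
    refine ⟨ext0 x, fun Y => ?_⟩
    have := hx (fun j => Y j)
    rw [ev2_fW] at this
    rwa [sumSq_congr (cons_ok w).2 (x' := ext0 x) (y' := Y)
      (fun _ _ => rfl) (fun i hi => ext0_restrict Y hi)] at this

/-! ### degree and size -/

theorem totalDegree_list_sum_le {R σ : Type*} [CommRing R] (l : List (MvPolynomial σ R)) (d : ℕ)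
    (h : ∀ p ∈ l, p.totalDegree ≤ d) : l.sum.totalDegree ≤ d := by
  induction l with
  | nil => simp
  | cons p l ih =>
    rw [List.sum_cons]
    exact (totalDegree_add _ _).trans (max_le (h p (by simp)) (ih fun q hq => h q (by simp [hq])))

theorem totalDegree_varZ (n : ℕ) (v : ℕ ⊕ ℕ) : (varZ n v).totalDegree ≤ 1 := by
  rcases v with i | j
  · by_cases h : i < n
    · simp [varZ, h]
    · simp [varZ, h]
  · by_cases h : j < n
    · simp [varZ, h, totalDegree_X]
    · simp [varZ, h]

theorem totalDegree_monoZ (n : ℕ) (m : Mono) : (monoZ n m).totalDegree ≤ m.2.2.length := by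
  unfold monoZ
  have h1 : ((m.coef : Zxy n)).totalDegree = 0 := by
    rw [← map_intCast (C : Zx n →+* Zxy n)]
    exact totalDegree_C _
  have h2 : ∀ l : List (ℕ ⊕ ℕ), (l.map (varZ n)).prod.totalDegree ≤ l.length := by
    intro l
    induction l with
    | nil => simp
    | cons v l ih =>
      simp only [List.map_cons, List.prod_cons, List.length_cons]
      refine (totalDegree_mul _ _).trans ?_
      have := totalDegree_varZ n v
      omega
  refine (totalDegree_mul _ _).trans ?_
  have := h2 m.2.2
  omega

theorem totalDegree_fW (w : List Bool) : (fW w).totalDegree ≤ 4 := by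
  unfold fW sumZ
  apply totalDegree_list_sum_le
  intro p hp
  obtain ⟨c, hc, rfl⟩ := List.mem_map.1 hp
  have h1 : (polyZ (nVar w) c).totalDegree ≤ 2 := by
    unfold polyZ
    apply totalDegree_list_sum_le
    intro p hp
    obtain ⟨m, hm, rfl⟩ := List.mem_map.1 hp
    exact (totalDegree_monoZ _ _).trans (((cons_ok w).2 c hc).2 m hm).deg
  refine (totalDegree_pow _ _).trans ?_
  omega

theorem bd_list_sum {R : Type*} [CommRing R] [HasNu R] (l : List R) {c : ℝ} {E : ℕ} (hc : 0 ≤ c)
    (h : ∀ p ∈ l, Bd p c E) : Bd l.sum (l.length * c) E := by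
  induction l with
  | nil => simpa using bd_zero le_rfl E
  | cons p l ih =>
    rw [List.sum_cons]
    have h1 := (h p (by simp)).add (ih fun q hq => h q (by simp [hq]))
    rw [max_self] at h1
    refine h1.mono (le_of_eq ?_) ?_ le_rfl
    · push_cast [List.length_cons]; ring
    · positivity

theorem bd_varZ (n : ℕ) (v : ℕ ⊕ ℕ) : Bd (varZ n v) 1 1 := by
  rcases v with i | j
  · by_cases h : i < n
    · simpa [varZ, h] using (bd_X (R := ℤ) (⟨i, h⟩ : Fin n)).C
    · simpa [varZ, h] using bd_zero zero_le_one 1
  · by_cases h : j < n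
    · simpa [varZ, h] using bd_X (⟨j, h⟩ : Fin n)
    · simpa [varZ, h] using bd_zero zero_le_one 1

theorem bd_monoZ {n N B : ℕ} {m : Mono} (hm : MonoOK N B m) : Bd (monoZ n m) B 2 := by
  unfold monoZ
  have h2 : ∀ l : List (ℕ ⊕ ℕ), Bd (l.map (varZ n)).prod 1 l.length := by
    intro l
    induction l with
    | nil => simpa using bd_one (R := Zxy n)
    | cons v l ih =>
      simp only [List.map_cons, List.prod_cons, List.length_cons]
      have := (bd_varZ n v).mul ih
      refine this.mono (by norm_num) (by norm_num) (by omega)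
  have h1 := (bd_intCast (R := Zxy n) m.coef).mul (h2 m.2.2)
  refine h1.mono ?_ (Nat.cast_nonneg _) (by have := hm.deg; omega)
  rw [mul_one]
  have h3 : |(m.coef : ℝ)| = m.2.1 := by
    unfold Mono.coef
    split_ifs <;> simp
  rw [h3]
  exact_mod_cast hm.coef.le

theorem bd_polyZ {n N B : ℕ} {c : SPoly} (hc : ConOK N B c) : Bd (polyZ n c) (4 * B) 2 := by
  unfold polyZ
  have h := bd_list_sum (c.map (monoZ n)) (c := (B : ℝ)) (E := 2) (Nat.cast_nonneg _) (by
    intro p hp
    obtain ⟨m, hm, rfl⟩ := List.mem_map.1 hp
    exact bd_monoZ (hc.2 m hm))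
  refine h.mono ?_ (by positivity) le_rfl
  rw [List.length_map]
  have : (c.length : ℝ) ≤ 4 := by exact_mod_cast hc.1
  exact mul_le_mul_of_nonneg_right this (Nat.cast_nonneg _)

theorem bd_fW (w : List Bool) :
    Bd (fW w) (nVar w * (4 * 2 ^ (w.length + 1)) ^ 2) 4 := by
  unfold fW sumZ
  have h := bd_list_sum ((cons w).map fun c => polyZ (nVar w) c ^ 2)
    (c := (4 * 2 ^ (w.length + 1)) ^ 2) (E := 4) (by positivity) (by
    intro p hp
    obtain ⟨c, hc, rfl⟩ := List.mem_map.1 hp
    have := (bd_polyZ (n := nVar w) ((cons_ok w).2 c hc)).pow 2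
    push_cast at this
    exact this)
  refine h.mono ?_ (by positivity) le_rfl
  rw [List.length_map]
  have : ((cons w).length : ℝ) ≤ nVar w := by exact_mod_cast (cons_ok w).1
  exact mul_le_mul_of_nonneg_right this (by positivity)

end Crest.Agent.R316.Parse
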