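import Crest.Agent.R316.Parse.Defs

/-!
# R316 / Parse / Read : correctness of the readers

* `decTok_encTok` : `decTok (encTok ts) = ts`
* `rtoks φ` : the reversed tokens of a formula; `toks_toNats : toks φ.toNats = rtoks φ`
* `valid_iff` : `Valid w ↔ ∃ S : Sentence, S.WF ∧ S.encode = w`
-/

set_option autoImplicit false

namespace Crest.Agent.R316.Parse

open Crest.RealEA

/-! ### numbers -/

theorem foldl_bStep_flatMap (l : List Bool) (d : List Bool) (T : List ℕ) :
    (l.flatMap fun b => [true, b]).foldl bStep (none, d, T) = (none, l.reverse ++ d, T) := by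
  induction l generalizing d with
  | nil => rfl
  | cons b l ih => simp [bStep, ih]

theorem msbVal_append (l : List Bool) (b : Bool) : msbVal (l ++ [b]) = 2 * msbVal l + b.toNat := by
  simp [msbVal]

theorem msbVal_bits (k : ℕ) : msbVal k.bits.reverse = k := by
  induction k using Nat.binaryRec' with
  | zero => simp [msbVal]
  | bit b n h ih =>
    rw [Nat.bits_append_bit n b h, List.reverse_cons, msbVal_append, ih, Nat.bit_val]

theorem foldl_bStep_natBits (k : ℕ) (T : List ℕ) :
    (natBits k).foldl bStep (none, [], T) = (none, [], k :: T) := by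
  unfold natBits
  rw [List.foldl_append, foldl_bStep_flatMap]
  simp [bStep, msbVal_bits]

theorem foldl_bStep_encTok (ts : List ℕ) (T : List ℕ) :
    (encTok ts).foldl bStep (none, [], T) = (none, [], ts.reverse ++ T) := by
  unfold encTok
  induction ts generalizing T with
  | nil => rfl
  | cons k ts ih => simp [foldl_bStep_natBits, ih]

theorem decTok_encTok (ts : List ℕ) : decTok (encTok ts) = ts := by
  unfold decTok
  rw [foldl_bStep_encTok]
  simp

/-! ### tokens -/

/-- gate as a triple -/
def toGt : AGate → Gt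
  | AGate.const z => (0, if z < 0 then 1 else 0, z.natAbs)
  | AGate.varX i => (1, i, 0)
  | AGate.varY i => (2, i, 0)
  | AGate.add a b => (3, a, b)
  | AGate.sub a b => (4, a, b)
  | AGate.mul a b => (5, a, b)

theorem gtNats_toGt (g : AGate) : gtNats (toGt g) = g.toNats := by
  cases g <;> simp [gtNats, toGt, AGate.toNats]

/-- the reversed list of gates of a circuit -/
def rgates (c : List AGate) : List Gt := (c.map toGt).reverse

@[simp] theorem rgates_nil : rgates [] = [] := rfl

theorem rgates_append (c : List AGate) (g : AGate) : rgates (c ++ [g]) = toGt g :: rgates c := by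
  simp [rgates]

@[simp] theorem length_rgates (c : List AGate) : (rgates c).length = c.length := by simp [rgates]

/-- reversed tokens of a formula -/
def rtoks : Form → List FTok
  | Form.eqZero c => [(6, rgates c)]
  | Form.pos c => [(7, rgates c)]
  | Form.and φ ψ => rtoks ψ ++ rtoks φ ++ [(8, [])]
  | Form.or φ ψ => rtoks ψ ++ rtoks φ ++ [(9, [])]
  | Form.not φ => rtoks φ ++ [(10, [])]

theorem foldl_tStep_gate (g : AGate) (k : ℕ) (gs : List Gt) (T : List FTok) :
    g.toNats.foldl tStep (0, 0, 0, (k, gs) :: T) = (0, 0, 0, (k, toGt g :: gs) :: T) := by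
  cases g <;> simp [AGate.toNats, tStep, addGate, toGt]

theorem foldl_tStep_gates (c : List AGate) (k : ℕ) (gs : List Gt) (T : List FTok) :
    (c.flatMap AGate.toNats).foldl tStep (0, 0, 0, (k, gs) :: T) =
      (0, 0, 0, (k, rgates c ++ gs) :: T) := by
  induction c generalizing gs with
  | nil => simp
  | cons g c ih =>
    rw [List.flatMap_cons, List.foldl_append, foldl_tStep_gate, ih]
    simp [rgates]

theorem foldl_tStep_form (φ : Form) (T : List FTok) :
    φ.toNats.foldl tStep (0, 0, 0, T) = (0, 0, 0, rtoks φ ++ T) := by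
  induction φ generalizing T with
  | eqZero c =>
    simp only [Form.toNats, circuitToNats, List.foldl_cons]
    have : tStep (tStep (0, 0, 0, T) 6) c.length = (0, 0, 0, (6, []) :: T) := by simp [tStep]
    rw [this, foldl_tStep_gates]
    simp [rtoks]
  | pos c =>
    simp only [Form.toNats, circuitToNats, List.foldl_cons]
    have : tStep (tStep (0, 0, 0, T) 7) c.length = (0, 0, 0, (7, []) :: T) := by simp [tStep]
    rw [this, foldl_tStep_gates]
    simp [rtoks]
  | and φ ψ ih1 ih2 =>
    simp only [Form.toNats, List.foldl_cons, List.foldl_append]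
    have : tStep (0, 0, 0, T) 8 = (0, 0, 0, (8, []) :: T) := by simp [tStep]
    rw [this, ih1, ih2]
    simp [rtoks]
  | or φ ψ ih1 ih2 =>
    simp only [Form.toNats, List.foldl_cons, List.foldl_append]
    have : tStep (0, 0, 0, T) 9 = (0, 0, 0, (9, []) :: T) := by simp [tStep]
    rw [this, ih1, ih2]
    simp [rtoks]
  | not φ ih =>
    simp only [Form.toNats, List.foldl_cons]
    have : tStep (0, 0, 0, T) 10 = (0, 0, 0, (10, []) :: T) := by simp [tStep]
    rw [this, ih]
    simp [rtoks]

theorem toks_toNats (φ : Form) : toks φ.toNats = rtoks φ := by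
  unfold toks
  rw [foldl_tStep_form]
  simp

theorem tokNats_six (k : ℕ) (hk : k ≤ 7) (c : List AGate) :
    tokNats (k, rgates c) = k :: circuitToNats c := by
  unfold tokNats
  rw [if_pos hk]
  simp only [length_rgates, circuitToNats, List.cons.injEq, true_and]
  simp only [rgates, List.reverse_reverse]
  induction c with
  | nil => rfl
  | cons g c ih => simp [ih, gtNats_toGt]

theorem flatMap_rtoks (φ : Form) : (rtoks φ).reverse.flatMap tokNats = φ.toNats := by
  induction φ with
  | eqZero c => simp [rtoks, tokNats_six, Form.toNats]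
  | pos c => simp [rtoks, tokNats_six, Form.toNats]
  | and φ ψ ih1 ih2 => simp [rtoks, Form.toNats, ← ih1, ← ih2, tokNats]
  | or φ ψ ih1 ih2 => simp [rtoks, Form.toNats, ← ih1, ← ih2, tokNats]
  | not φ ih => simp [rtoks, Form.toNats, ← ih, tokNats]

/-! ### checks -/

theorem gateOK_toGt {r s t : ℕ} {g : AGate} : gateOK r s t (toGt g) ↔ g.WF r s t := by
  cases g with
  | const z =>
    by_cases h : z < 0
    · simp [gateOK, toGt, AGate.WF, h]; omega
    · simp [gateOK, toGt, AGate.WF, h]
  | varX i => simp [gateOK, toGt, AGate.WF]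
  | varY i => simp [gateOK, toGt, AGate.WF]
  | add a b => simp [gateOK, toGt, AGate.WF]
  | sub a b => simp [gateOK, toGt, AGate.WF]
  | mul a b => simp [gateOK, toGt, AGate.WF]

theorem exists_gate {r s t : ℕ} {g : Gt} (h : gateOK r s t g) :
    ∃ a : AGate, a.WF r s t ∧ a.toNats = gtNats g := by
  obtain ⟨k, a, b⟩ := g
  rcases h with ⟨h1, h2⟩ | ⟨h1, h2⟩ | ⟨h1, h2⟩ | ⟨h1, h2, h3, h4⟩
  · simp only at h1 h2
    subst h1
    rcases h2 with h2 | ⟨h2, h3⟩
    · subst h2
      refine ⟨AGate.const b, trivial, ?_⟩
      have : ¬ ((b : ℤ) < 0) := by omega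
      simp [AGate.toNats, gtNats]
    · subst h2
      refine ⟨AGate.const (-b), trivial, ?_⟩
      have : (-(b : ℤ) < 0) := by omega
      simp [AGate.toNats, gtNats, h3]
  · simp only at h1 h2
    subst h1
    exact ⟨AGate.varX a, h2, by simp [AGate.toNats, gtNats]⟩
  · simp only at h1 h2
    subst h1
    exact ⟨AGate.varY a, h2, by simp [AGate.toNats, gtNats]⟩
  · simp only at h1 h2 h3 h4
    have : k = 3 ∨ k = 4 ∨ k = 5 := by omega
    rcases this with h | h | h
    · subst h; exact ⟨AGate.add a b, ⟨h3, h4⟩, by simp [AGate.toNats, gtNats]⟩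
    · subst h; exact ⟨AGate.sub a b, ⟨h3, h4⟩, by simp [AGate.toNats, gtNats]⟩
    · subst h; exact ⟨AGate.mul a b, ⟨h3, h4⟩, by simp [AGate.toNats, gtNats]⟩

/-- all gates are well formed -/
def gatesWF (r s : ℕ) (c : List AGate) : Prop := ∀ t : Fin c.length, (c.get t).WF r s t

theorem gatesWF_append {r s : ℕ} {c : List AGate} {g : AGate} :
    gatesWF r s (c ++ [g]) ↔ gatesWF r s c ∧ g.WF r s c.length := by
  constructor
  · intro h
    constructor
    · intro t
      have := h ⟨t, by simp only [List.length_append]; omega⟩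
      simpa [List.getElem_append_left t.2] using this
    · have := h ⟨c.length, by simp⟩
      simpa using this
  · rintro ⟨h1, h2⟩ ⟨t, ht⟩
    simp only [List.length_append, List.length_cons, List.length_nil, zero_add] at ht
    rcases Nat.lt_or_ge t c.length with h | h
    · have := h1 ⟨t, h⟩
      simpa [List.getElem_append_left h] using this
    · have : t = c.length := by omega
      subst this
      simpa using h2

theorem gatesOK_rgates {r s : ℕ} {c : List AGate} : gatesOK r s (rgates c) = true ↔ gatesWF r s c := by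
  induction c using List.reverseRecOn with
  | nil => simp [gatesOK, gatesWF]
  | append_singleton c g ih =>
    rw [rgates_append, gatesWF_append, ← ih]
    simp only [gatesOK, length_rgates, Bool.and_eq_true, decide_eq_true_eq, gateOK_toGt]
    tauto

theorem exists_gates {r s : ℕ} {l : List Gt} (h : gatesOK r s l = true) :
    ∃ c : List AGate, c.length = l.length ∧ gatesWF r s c ∧
      c.flatMap AGate.toNats = l.reverse.flatMap gtNats := by
  induction l with
  | nil => exact ⟨[], rfl, fun t => t.elim0, rfl⟩
  | cons g l ih =>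
    simp only [gatesOK, Bool.and_eq_true, decide_eq_true_eq] at h
    obtain ⟨c, hc1, hc2, hc3⟩ := ih h.2
    obtain ⟨a, ha1, ha2⟩ := exists_gate h.1
    refine ⟨c ++ [a], by simp [hc1], gatesWF_append.2 ⟨hc2, by rw [hc1]; exact ha1⟩, ?_⟩
    simp [hc3, ha2]

theorem tokOK_circuit {r s k : ℕ} (hk : k = 6 ∨ k = 7) {c : List AGate} :
    tokOK r s (k, rgates c) = true ↔ CircuitWF r s c := by
  have h8 : ¬ (k = 8 ∨ k = 9 ∨ k = 10) := by omega
  simp only [tokOK, hk, h8, decide_true, decide_false, Bool.true_and, Bool.false_and,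
    Bool.or_false, Bool.and_eq_true, gatesOK_rgates]
  unfold CircuitWF gatesWF
  have : (!(rgates c).isEmpty) = true ↔ c ≠ [] := by
    cases c <;> simp [rgates]
  rw [this]

theorem all_rtoks {r s : ℕ} {φ : Form} : (rtoks φ).all (tokOK r s) = true ↔ φ.WF r s := by
  induction φ with
  | eqZero c => simp [rtoks, tokOK_circuit, Form.WF]
  | pos c => simp [rtoks, tokOK_circuit, Form.WF]
  | and φ ψ ih1 ih2 =>
    simp only [rtoks, List.all_append, Bool.and_eq_true, ih1, ih2, Form.WF]
    have : ([(8, [])] : List FTok).all (tokOK r s) = true := by simp [tokOK]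
    tauto
  | or φ ψ ih1 ih2 =>
    simp only [rtoks, List.all_append, Bool.and_eq_true, ih1, ih2, Form.WF]
    have : ([(9, [])] : List FTok).all (tokOK r s) = true := by simp [tokOK]
    tauto
  | not φ ih =>
    simp only [rtoks, List.all_append, Bool.and_eq_true, ih, Form.WF]
    have : ([(10, [])] : List FTok).all (tokOK r s) = true := by simp [tokOK]
    tauto

theorem foldl_hStep (φ : Form) (n : ℕ) : (rtoks φ).foldl hStep (some n) = some (n + 1) := by
  induction φ generalizing n with
  | eqZero c => simp [rtoks, hStep]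
  | pos c => simp [rtoks, hStep]
  | and φ ψ ih1 ih2 => simp [rtoks, List.foldl_append, ih1, ih2, hStep]
  | or φ ψ ih1 ih2 => simp [rtoks, List.foldl_append, ih1, ih2, hStep]
  | not φ ih => simp [rtoks, List.foldl_append, ih, hStep]

theorem foldl_hStep_none (L : List FTok) : L.foldl hStep none = none := by
  induction L with
  | nil => rfl
  | cons t L ih => simpa [hStep] using ih

theorem exists_forms {r s : ℕ} (L : List FTok) (n : ℕ) (h : L.all (tokOK r s) = true)
    (hn : L.foldl hStep (some 0) = some n) :
    ∃ Φ : List Form, Φ.length = n ∧ (∀ φ ∈ Φ, φ.WF r s) ∧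
      L.reverse.flatMap tokNats = Φ.flatMap Form.toNats := by
  induction L using List.reverseRecOn generalizing n with
  | nil =>
    simp only [List.foldl_nil, Option.some.injEq] at hn
    exact ⟨[], by simpa using hn, by simp, by simp⟩
  | append_singleton L t ih =>
    simp only [List.all_append, List.all_cons, List.all_nil, Bool.and_true, Bool.and_eq_true] at h
    rw [List.foldl_append] at hn
    simp only [List.foldl_cons, List.foldl_nil] at hn
    rcases hm : L.foldl hStep (some 0) with _ | m
    · rw [hm] at hn; simp [hStep] at hn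
    rw [hm] at hn
    obtain ⟨Φ, hΦ1, hΦ2, hΦ3⟩ := ih m h.1 hm
    obtain ⟨k, gs⟩ := t
    have hk := h.2
    simp only [tokOK, Bool.or_eq_true, Bool.and_eq_true, decide_eq_true_eq] at hk
    rcases hk with ⟨⟨hk, hne⟩, hgs⟩ | ⟨hk, he⟩
    · -- circuit
      have hk7 : k ≤ 7 := by omega
      simp only [hStep, hk7, if_true, Option.some.injEq] at hn
      obtain ⟨c, hc1, hc2, hc3⟩ := exists_gates hgs
      have hcne : c ≠ [] := by
        intro hc
        subst hc
        simp only [List.length_nil] at hc1
        have : gs = [] := List.length_eq_zero_iff.1 hc1.symm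
        subst this
        simp at hne
      have hN : tokNats (k, gs) = k :: circuitToNats c := by
        simp only [tokNats, hk7, if_true, circuitToNats, hc3, hc1]
      rcases hk with hk | hk
      · subst hk
        refine ⟨Form.eqZero c :: Φ, by simp [hΦ1, hn], ?_, ?_⟩
        · intro φ hφ
          rcases List.mem_cons.1 hφ with h | h
          · subst h; exact ⟨hcne, hc2⟩
          · exact hΦ2 φ h
        · simp [hΦ3, hN, Form.toNats]
      · subst hk
        refine ⟨Form.pos c :: Φ, by simp [hΦ1, hn], ?_, ?_⟩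
        · intro φ hφ
          rcases List.mem_cons.1 hφ with h | h
          · subst h; exact ⟨hcne, hc2⟩
          · exact hΦ2 φ h
        · simp [hΦ3, hN, Form.toNats]
    · have hk7 : ¬ k ≤ 7 := by omega
      have hN : tokNats (k, gs) = [k] := by simp [tokNats, hk7]
      simp only [hStep, hk7, if_false] at hn
      by_cases hk10 : k = 10
      · subst hk10
        simp only [if_true] at hn
        split_ifs at hn with h1
        simp only [Option.some.injEq] at hn
        obtain ⟨φ, Φ', rfl⟩ : ∃ φ Φ', Φ = φ :: Φ' := by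
          cases Φ with
          | nil => simp at hΦ1; omega
          | cons φ Φ' => exact ⟨φ, Φ', rfl⟩
        refine ⟨Form.not φ :: Φ', by simp at hΦ1 ⊢; omega, ?_, ?_⟩
        · intro χ hχ
          rcases List.mem_cons.1 hχ with h | h
          · subst h; exact hΦ2 φ (by simp)
          · exact hΦ2 χ (by simp [h])
        · simp [hΦ3, hN, Form.toNats]
      · simp only [hk10, if_false] at hn
        split_ifs at hn with h1
        simp only [Option.some.injEq] at hn
        obtain ⟨φ, ψ, Φ', rfl⟩ : ∃ φ ψ Φ', Φ = φ :: ψ :: Φ' := by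
          rcases Φ with _ | ⟨φ, _ | ⟨ψ, Φ'⟩⟩
          · simp at hΦ1; omega
          · simp at hΦ1; omega
          · exact ⟨φ, ψ, Φ', rfl⟩
        have hk89 : k = 8 ∨ k = 9 := by omega
        rcases hk89 with hk | hk
        · subst hk
          refine ⟨Form.and φ ψ :: Φ', by simp at hΦ1 ⊢; omega, ?_, ?_⟩
          · intro χ hχ
            rcases List.mem_cons.1 hχ with h | h
            · subst h; exact ⟨hΦ2 φ (by simp), hΦ2 ψ (by simp)⟩
            · exact hΦ2 χ (by simp [h])
          · simp [hΦ3, hN, Form.toNats]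
        · subst hk
          refine ⟨Form.or φ ψ :: Φ', by simp at hΦ1 ⊢; omega, ?_, ?_⟩
          · intro χ hχ
            rcases List.mem_cons.1 hχ with h | h
            · subst h; exact ⟨hΦ2 φ (by simp), hΦ2 ψ (by simp)⟩
            · exact hΦ2 χ (by simp [h])
          · simp [hΦ3, hN, Form.toNats]

theorem validNats_toNats {S : Sentence} (hS : S.WF) : ValidNats S.toNats := by
  have h : S.toNats.drop 2 = S.body.toNats := by simp [Sentence.toNats]
  refine ⟨by simp [Sentence.toNats], ?_, ?_, ?_⟩
  · rw [h, toks_toNats, flatMap_rtoks]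
  · rw [h, toks_toNats]
    simpa [Sentence.toNats] using all_rtoks.2 hS
  · rw [h, toks_toNats]
    exact foldl_hStep _ 0

theorem exists_of_validNats {ts : List ℕ} (h : ValidNats ts) : ∃ S : Sentence, S.WF ∧ S.toNats = ts := by
  obtain ⟨h1, h2, h3, h4⟩ := h
  obtain ⟨Φ, hΦ1, hΦ2, hΦ3⟩ := exists_forms _ _ h3 h4
  obtain ⟨φ, rfl⟩ := List.length_eq_one_iff.1 hΦ1
  rcases ts with _ | ⟨r, _ | ⟨s, l⟩⟩
  · simp at h1
  · simp at h1
  · refine ⟨⟨r, s, φ⟩, ?_, ?_⟩
    · exact hΦ2 φ (by simp)
    · simp only [List.drop_succ_cons, List.drop_zero] at h2 hΦ3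
      rw [h2] at hΦ3
      simp [Sentence.toNats, hΦ3]

theorem encode_eq (S : Sentence) : S.encode = encTok S.toNats := rfl

theorem valid_iff {w : List Bool} : Valid w ↔ ∃ S : Sentence, S.WF ∧ S.encode = w := by
  constructor
  · rintro ⟨h1, h2⟩
    obtain ⟨S, hS1, hS2⟩ := exists_of_validNats h2
    exact ⟨S, hS1, by rw [encode_eq, hS2, h1]⟩
  · rintro ⟨S, hS1, rfl⟩
    rw [encode_eq]
    unfold Valid
    rw [decTok_encTok]
    exact ⟨rfl, validNats_toNats hS1⟩

end Crest.Agent.R316.Parse
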